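import Vale.Agent.P321.Marker.Items

/-!
A second moment bound: a few markers are invisible inside a long run of pairs.
-/

namespace Vale.Agent.P321.Marker

open Finset
open Vale.Agent.P321

set_option linter.unusedSectionVars false
set_option linter.unusedVariables false

variable {M : Type} [Monoid M]

lemma Bd.of_smul_ref {f R : Alg M} {c t : ℝ} (h : Bd f (t • R) c) (ht : 0 ≤ t) :
    Bd f R (c * t) :=
  ⟨mul_nonneg h.1 ht, fun φ => by
    have := h.2 φ
    rw [ev_smul] at this
    linarith⟩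

lemma Bd.add_two {f g R : Alg M} {a b : ℝ} (hf : Bd f R a) (hg : Bd g R b) (hR : Nn R) :
    Bd (f + g) R (2 * a + 2 * b) :=
  ⟨by linarith [hf.1, hg.1], fun φ => by
    rw [ev_add]
    nlinarith [hf.2 φ, hg.2 φ, sq_nonneg (ev f φ - ev g φ)]⟩

lemma bd_weighted {ι : Type*} (s : Finset ι) (b : ι → ℝ) (f : ι → Alg M) (R : Alg M) (v : ι → ℝ)
    (hR : Nn R) (hb : ∀ i ∈ s, 0 ≤ b i) (h : ∀ i ∈ s, b i ≠ 0 → Bd (f i) R (v i)) :
    Bd (∑ i ∈ s, b i • f i) R ((∑ i ∈ s, b i * v i) * ∑ i ∈ s, b i) := by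
  have key := bd_sum s (fun i => b i • f i) (fun i => b i • R) (fun i => b i * v i)
    (fun i hi => ?_) (fun i hi => hR.smul (hb i hi))
  · rw [← sum_smul] at key
    exact key.of_smul_ref (sum_nonneg hb)
  · rcases eq_or_ne (b i) 0 with h0 | h0
    · simpa [h0] using bd_zero nn_zero le_rfl
    · have hp : 0 < b i := lt_of_le_of_ne (hb i hi) h0.symm
      refine (congrArg (Bd _ _) ?_).mp ((h i hi h0).smul_smul hp.le fun h' => absurd h' h0)
      field_simp

variable {ι : Type} [Fintype ι] (μ : Model ι)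

/-- The uniform reference on words of length at most `L`. -/
noncomputable def uptoM (L : ℕ) : Alg (FreeMonoid ι) := ∑ n ∈ range (L + 1), rhoHat μ ^ n

lemma nn_uptoM (L : ℕ) : Nn (uptoM μ L) := nn_sum _ _ fun n _ => (nn_rhoHat μ).pow n

lemma uptoM_mono {L L' : ℕ} (h : L ≤ L') : Le (uptoM μ L) (uptoM μ L') := fun φ hφ => by
  rw [uptoM, uptoM, ev_sum, ev_sum]
  exact sum_le_sum_of_subset_of_nonneg (range_mono (by omega))
    fun n _ _ => (nn_rhoHat μ).pow n φ hφ

lemma rhoHat_mul_uptoM (L : ℕ) : Le (rhoHat μ * uptoM μ L) (uptoM μ (L + 1)) := fun φ hφ => by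
  rw [uptoM, uptoM, mul_sum, ev_sum, ev_sum, sum_range_succ' _ (L + 1)]
  simp only [← pow_succ']
  exact le_add_of_nonneg_right ((nn_rhoHat μ).pow 0 φ hφ)

lemma rhoHat_pow_bd (n : ℕ) : Bd (rhoHat μ ^ n) (rhoHat μ ^ n) 1 := by
  have := bd_self ((nn_rhoHat μ).pow n)
  rwa [map_pow, mass_rhoHat, one_pow] at this

lemma pairT_pow_bd {r : ℝ} (h0 : 0 ≤ r) (h1 : r ≤ 1) (n : ℕ) {B : ℝ}
    (hB : ∀ i, bn r n i ≤ B) : Bd (pairT μ r ^ n) (uptoM μ n) B := by
  rw [pairT_pow]
  refine (bd_sum (range (n + 1)) (fun i => bn r n i • rhoHat μ ^ i) (fun i => (1 : ℝ) • rhoHat μ ^ i)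
    (fun i => bn r n i ^ 2) (fun i _ => ?_) fun i _ =>
      ((nn_rhoHat μ).pow i).smul zero_le_one).mono_ref ?_ |>.mono ?_ (nn_uptoM μ n)
  · simpa using (rhoHat_pow_bd μ i).smul_smul (d := bn r n i) zero_le_one (fun h => absurd h one_ne_zero)
  · simp only [one_smul]; exact Le.refl _
  · calc ∑ i ∈ range (n + 1), bn r n i ^ 2 ≤ ∑ i ∈ range (n + 1), B * bn r n i :=
          sum_le_sum fun i _ => by
            rw [sq]; exact mul_le_mul_of_nonneg_right (hB i) (bn_nonneg h0 h1 n i)
      _ = B := by rw [← mul_sum, bn_sum, mul_one]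

lemma nn_prefix {r : ℝ} (h0 : 0 ≤ r) (h1 : r ≤ 1) (n : ℕ) : Nn (pairT μ r ^ n) :=
  (nn_pairT μ h0 h1).pow n

/-- One step of the chain: markers inserted at `c + d * G` followed by the tails `Y d`. -/
lemma bd_markers {lo hi r : ℝ} (hlo : 0 < lo) (hr : lo ≤ r) (hr' : r ≤ hi) (hhi : hi < 1)
    {G : ℕ} (hG : 0 < G) (c j L : ℕ) (Y : ℕ → Alg (FreeMonoid ι)) (v : ℕ → ℝ) (ℓ : ℕ → ℕ)
    (hY : ∀ d, d < j → Bd (Y d) (uptoM μ (ℓ d)) (v d))
    (hℓ : ∀ d, d < j → c + d * G + 1 + ℓ d ≤ L) :
    Bd (∑ d ∈ range j, pairT μ r ^ (c + d * G) * eHat μ * Y d) (uptoM μ L)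
      (kappa μ * ∑ d ∈ range j,
        ((lo * G)⁻¹ + cmax lo hi / √(lo * (((c + d * G : ℕ) : ℝ) + 1))) * v d) := by
  have h0 : 0 < r := hlo.trans_le hr
  have h1 : r < 1 := hr'.trans_lt hhi
  set I := L + 1 with hI
  set Z : ℕ → Alg (FreeMonoid ι) := fun i => ∑ d ∈ range j, bn r (c + d * G) i • Y d with hZ
  have hexp : ∑ d ∈ range j, pairT μ r ^ (c + d * G) * eHat μ * Y d
      = ∑ i ∈ range L, rhoHat μ ^ i * eHat μ * Z i := by
    simp only [hZ, mul_sum, mul_smul_comm]
    rw [sum_comm]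
    refine sum_congr rfl fun d hd => ?_
    rw [pairT_pow, sum_mul, sum_mul]
    refine sum_subset_zero_on_sdiff (range_mono (by have := hℓ d (mem_range.1 hd); omega))
      (fun i hi => ?_) fun i _ => by rw [smul_mul_assoc, smul_mul_assoc]
    have : c + d * G < i := by
      have := (mem_sdiff.1 hi).2; simp at this; omega
    simp [bn_eq_zero r this]
  have hZb : ∀ i, i < L → Bd (Z i) (uptoM μ (L - (i + 1)))
      ((∑ d ∈ range j, bn r (c + d * G) i * v d) * ∑ d ∈ range j, bn r (c + d * G) i) := by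
    intro i hi
    refine bd_weighted _ _ _ _ _ (nn_uptoM μ _) (fun d _ => bn_nonneg h0.le h1.le _ _) fun d hd hne => ?_
    have hid : i ≤ c + d * G := by
      by_contra hh
      exact hne (bn_eq_zero r (by omega))
    have := hℓ d (mem_range.1 hd)
    exact (hY d (mem_range.1 hd)).mono_ref (uptoM_mono μ (by omega))
  have key := orth μ L (fun i => uptoM μ (L - i)) Z
    (fun i => (∑ d ∈ range j, bn r (c + d * G) i * v d) * ∑ d ∈ range j, bn r (c + d * G) i)
    (fun i => nn_uptoM μ _) (fun i hi => ?_) hZb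
  · rw [Nat.sub_zero] at key
    rw [hexp]
    refine key.mono (mul_le_mul_of_nonneg_left ?_ (kappa_nonneg μ)) (nn_uptoM μ L)
    have hv : ∀ d ∈ range j, 0 ≤ v d := fun d hd => (hY d (mem_range.1 hd)).1
    calc ∑ i ∈ range L, (∑ d ∈ range j, bn r (c + d * G) i * v d) * ∑ d ∈ range j, bn r (c + d * G) i
        ≤ ∑ i ∈ range L, (∑ d ∈ range j, bn r (c + d * G) i * v d) *
            ((lo * G)⁻¹ + cmax lo hi / √((i : ℝ) + 1)) := by
          refine sum_le_sum fun i _ => mul_le_mul_of_nonneg_left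
            (sum_lattice_le hlo hr hr' hhi hG c j i)
            (sum_nonneg fun d hd => mul_nonneg (bn_nonneg h0.le h1.le _ _) (hv d hd))
      _ = ∑ d ∈ range j, v d * ∑ i ∈ range L,
            bn r (c + d * G) i * ((lo * G)⁻¹ + cmax lo hi / √((i : ℝ) + 1)) := by
          simp only [sum_mul, mul_sum]
          rw [sum_comm]
          exact sum_congr rfl fun d _ => sum_congr rfl fun i _ => by ring
      _ ≤ _ := by
          refine sum_le_sum fun d hd => ?_
          rw [mul_comm _ (v d)]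
          refine mul_le_mul_of_nonneg_left ?_ (hv d hd)
          have hcm : 0 ≤ cmax lo hi := by
            have : 0 < 1 - hi := by linarith
            unfold cmax; positivity
          have hφ : ∀ i : ℕ, 0 ≤ (lo * G)⁻¹ + cmax lo hi / √((i : ℝ) + 1) := fun i => by positivity
          calc ∑ i ∈ range L, bn r (c + d * G) i * ((lo * G)⁻¹ + cmax lo hi / √((i : ℝ) + 1))
              ≤ bE r (c + d * G) (fun i => (lo * G)⁻¹ + cmax lo hi * (√((i : ℝ) + 1))⁻¹) := by
                rw [bE]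
                simp only [← div_eq_mul_inv]
                have hsub : range (c + d * G + 1) ⊆ range L := range_mono (by
                  have := hℓ d (mem_range.1 hd); omega)
                rw [← sum_subset hsub fun i _ hi => by
                  rw [bn_eq_zero r (by simp at hi; omega), zero_mul]]
            _ ≤ _ := by
                rw [bE_add, bE_smul, bE_const, div_eq_mul_inv]
                gcongr
                refine (bE_inv_sqrt_le h0 h1.le _).trans ?_
                gcongr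
  · have e : L - i = L - (i + 1) + 1 := by omega
    rw [e]
    exact rhoHat_mul_uptoM μ _

lemma sum_inv_sqrt_le (n : ℕ) : ∑ x ∈ range n, (√((x : ℝ) + 1))⁻¹ ≤ 2 * √(n : ℝ) := by
  induction n with
  | zero => simp
  | succ n ih =>
    rw [sum_range_succ]; push_cast
    have h1 := Real.sq_sqrt (show (0 : ℝ) ≤ (n : ℝ) by positivity)
    have h2 := Real.sq_sqrt (show (0 : ℝ) ≤ (n : ℝ) + 1 by positivity)
    have hb : 0 < √((n : ℝ) + 1) := by positivity
    have : (√((n : ℝ) + 1))⁻¹ ≤ 2 * √((n : ℝ) + 1) - 2 * √(n : ℝ) := by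
      rw [inv_eq_one_div, div_le_iff₀ hb]
      nlinarith [sq_nonneg (√((n : ℝ) + 1) - √(n : ℝ))]
    linarith

lemma sum_pair_inv_sqrt_le (j : ℕ) :
    ∑ d ∈ range j, (√((d : ℝ) + 1))⁻¹ * (√((j : ℝ) - d))⁻¹ ≤ 4 := by
  have key : ∀ d ∈ range j, (√((d : ℝ) + 1))⁻¹ * (√((j : ℝ) - d))⁻¹
      ≤ ((√((d : ℝ) + 1))⁻¹ + (√((j : ℝ) - d))⁻¹) * (√((j : ℝ) + 1))⁻¹ := by
    intro d hd
    have hdj : (d : ℝ) + 1 ≤ j := by exact_mod_cast mem_range.1 hd
    set x := √((d : ℝ) + 1) with hx
    set y := √((j : ℝ) - d) with hy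
    set z := √((j : ℝ) + 1) with hz
    have x0 : 0 < x := by rw [hx]; positivity
    have y0 : 0 < y := by rw [hy]; exact Real.sqrt_pos.2 (by linarith)
    have z0 : 0 < z := by rw [hz]; positivity
    have hzxy : z ≤ x + y := by
      rw [hz, hx, hy, Real.sqrt_le_iff]
      refine ⟨by positivity, ?_⟩
      rw [add_sq, Real.sq_sqrt (by positivity), Real.sq_sqrt (by linarith)]
      nlinarith [mul_nonneg (Real.sqrt_nonneg ((d : ℝ) + 1)) (Real.sqrt_nonneg ((j : ℝ) - d))]
    rw [inv_add_inv x0.ne' y0.ne', ← div_eq_mul_inv ((x + y) / (x * y)), div_div,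
      ← mul_inv, inv_eq_one_div, div_le_div_iff₀ (by positivity) (by positivity), one_mul]
    nlinarith [mul_pos x0 y0]
  refine (sum_le_sum key).trans ?_
  rw [← sum_mul, sum_add_distrib]
  have h2 : ∑ d ∈ range j, (√((j : ℝ) - d))⁻¹ = ∑ d ∈ range j, (√((d : ℝ) + 1))⁻¹ := by
    rw [← sum_range_reflect]
    refine sum_congr rfl fun d hd => ?_
    have hd' := mem_range.1 hd
    rw [Nat.cast_sub (by omega), Nat.cast_sub (by omega)]
    push_cast; ring_nf
  rw [h2, ← div_eq_mul_inv, div_le_iff₀ (by positivity)]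
  have h3 := sum_inv_sqrt_le j
  have : √(j : ℝ) ≤ √((j : ℝ) + 1) := Real.sqrt_le_sqrt (by linarith)
  linarith

/-- A marker in the middle of a cell of `2a + 1` tokens. -/
noncomputable def cellT (r : ℝ) (a : ℕ) : Alg (FreeMonoid ι) :=
  pairT μ r ^ a * bitT μ r * pairT μ r ^ a

lemma cellT_eq (r : ℝ) (a : ℕ) :
    cellT μ r a = pairT μ r ^ (2 * a + 1) + r • (pairT μ r ^ a * eHat μ * pairT μ r ^ a) := by
  simp only [cellT, bitT, mul_add, add_mul, mul_smul_comm, smul_mul_assoc, ← pow_succ, ← pow_add]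
  congr 2; omega

lemma cellT_pow_eq (r : ℝ) (a K : ℕ) :
    cellT μ r a ^ K = pairT μ r ^ (K * (2 * a + 1))
      + r • ∑ d ∈ range K, pairT μ r ^ (a + d * (2 * a + 1)) * eHat μ *
          (pairT μ r ^ a * cellT μ r a ^ (K - 1 - d)) := by
  induction K with
  | zero => simp
  | succ K ih =>
    have e1 := cellT_eq μ r a
    generalize pairT μ r = P at *
    generalize cellT μ r a = T at *
    generalize eHat μ = e at *
    calc T ^ (K + 1) = T * T ^ K := pow_succ' T K
      _ = P ^ (2 * a + 1) * T ^ K + r • (P ^ a * e * (P ^ a * T ^ K)) := by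
          nth_rewrite 1 [e1]
          rw [add_mul, smul_mul_assoc, mul_assoc (P ^ a * e)]
      _ = P ^ (2 * a + 1) * (P ^ (K * (2 * a + 1))
            + r • ∑ d ∈ range K, P ^ (a + d * (2 * a + 1)) * e * (P ^ a * T ^ (K - 1 - d)))
          + r • (P ^ a * e * (P ^ a * T ^ K)) := by rw [← ih]
      _ = P ^ ((K + 1) * (2 * a + 1))
            + r • ∑ d ∈ range (K + 1), P ^ (a + d * (2 * a + 1)) * e * (P ^ a * T ^ (K + 1 - 1 - d)) := by
          rw [mul_add, mul_smul_comm, mul_sum, sum_range_succ' _ K, smul_add, add_assoc, ← pow_add]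
          refine congrArg₂ (· + ·) (congrArg (P ^ ·) (by ring))
            (congrArg₂ (· + ·) (congrArg (r • ·) (sum_congr rfl fun d hd => ?_)) ?_)
          · rw [← mul_assoc (P ^ (2 * a + 1)), ← mul_assoc (P ^ (2 * a + 1)), ← pow_add,
              show K + 1 - 1 - (d + 1) = K - 1 - d by omega,
              show 2 * a + 1 + (a + d * (2 * a + 1)) = a + (d + 1) * (2 * a + 1) by ring]
          · simp

/-- The bound for one step, summed. -/
lemma step_le {lo cm A : ℝ} {G j c : ℕ} (hlo : 0 < lo) (hcm : 0 ≤ cm) (hA : 0 ≤ A) (hG : 0 < G)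
    (hjG : j ≤ G) (hc : G ≤ 2 * c + 1) (v : ℕ → ℝ)
    (hv : ∀ d, d < j → v d ≤ A / √(((j : ℝ) - d) * G / 2)) :
    ∑ d ∈ range j, ((lo * G)⁻¹ + cm / √(lo * (((c + d * G : ℕ) : ℝ) + 1))) * v d
      ≤ A * (4 / lo + 8 * cm / √lo) / G := by
  have hG' : (0 : ℝ) < G := Nat.cast_pos.2 hG
  set s2 := √(2 : ℝ) with hs2
  have hs20 : 0 < s2 := by rw [hs2]; positivity
  have hs22 : s2 * s2 = 2 := Real.mul_self_sqrt (by norm_num)
  have hs2' : s2 ≤ 2 := by nlinarith
  set g := √(G : ℝ) with hg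
  have hg0 : 0 < g := by rw [hg]; positivity
  have hg2 : g * g = G := Real.mul_self_sqrt hG'.le
  calc ∑ d ∈ range j, ((lo * G)⁻¹ + cm / √(lo * (((c + d * G : ℕ) : ℝ) + 1))) * v d
      ≤ ∑ d ∈ range j, ((lo * G)⁻¹ + cm / √lo * (s2 / g * (√((d : ℝ) + 1))⁻¹)) *
          (A * (s2 / g * (√((j : ℝ) - d))⁻¹)) := by
        refine sum_le_sum fun d hd => ?_
        have hdj : (d : ℝ) + 1 ≤ j := by exact_mod_cast mem_range.1 hd
        have b1 : ((d : ℝ) + 1) * G / 2 ≤ ((c + d * G : ℕ) : ℝ) + 1 := by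
          have : (G : ℝ) ≤ 2 * c + 1 := by exact_mod_cast hc
          push_cast
          nlinarith [mul_nonneg (d.cast_nonneg (α := ℝ)) hG'.le]
        have e : ∀ x : ℝ, 0 < x → s2 / g * (√x)⁻¹ = 1 / √(x * G / 2) := by
          intro x hx
          rw [Real.sqrt_div (by positivity), Real.sqrt_mul hx.le, ← hs2, ← hg]
          field_simp
        have hp1 : cm / √(lo * (((c + d * G : ℕ) : ℝ) + 1))
            ≤ cm / √lo * (s2 / g * (√((d : ℝ) + 1))⁻¹) := by
          rw [e _ (by positivity), Real.sqrt_mul hlo.le, ← div_div, mul_one_div]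
          gcongr
        have hp2 : v d ≤ A * (s2 / g * (√((j : ℝ) - d))⁻¹) := by
          rw [e _ (by linarith), mul_one_div]
          exact hv d (mem_range.1 hd)
        refine (mul_le_mul_of_nonneg_left hp2 (by positivity)).trans ?_
        gcongr
    _ = A * s2 / g * ((lo * G)⁻¹ * ∑ d ∈ range j, (√((j : ℝ) - d))⁻¹
          + cm / √lo * (s2 / g) * ∑ d ∈ range j, (√((d : ℝ) + 1))⁻¹ * (√((j : ℝ) - d))⁻¹) := by
        simp only [mul_sum, ← sum_add_distrib]
        exact sum_congr rfl fun d _ => by ring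
    _ ≤ A * s2 / g * ((lo * G)⁻¹ * (2 * g) + cm / √lo * (s2 / g) * 4) := by
        gcongr
        · have h2 : ∑ d ∈ range j, (√((j : ℝ) - d))⁻¹ = ∑ d ∈ range j, (√((d : ℝ) + 1))⁻¹ := by
            rw [← sum_range_reflect]
            refine sum_congr rfl fun d hd => ?_
            have hd' := mem_range.1 hd
            rw [Nat.cast_sub (by omega), Nat.cast_sub (by omega)]
            push_cast; ring_nf
          rw [h2]
          refine (sum_inv_sqrt_le j).trans ?_
          rw [hg]; gcongr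
        · exact sum_pair_inv_sqrt_le j
    _ = A * (2 * s2 / lo + 4 * (s2 * s2) * cm / √lo) / G := by
        rw [← hg2]; field_simp
    _ ≤ _ := by
        rw [hs22]
        gcongr <;> linarith

/-- Few markers are invisible: the squared distance of `K` cells from pairs only. -/
theorem chain {lo hi : ℝ} (hlo : 0 < lo) (hlohi : lo ≤ hi) (hhi : hi < 1) :
    ∃ θ C : ℝ, 0 < θ ∧ 0 < C ∧ ∀ r : ℝ, lo ≤ r → r ≤ hi → ∀ a K : ℕ,
      (K : ℝ) ≤ θ * (2 * a + 1) →
      Bd (cellT μ r a ^ K - pairT μ r ^ (K * (2 * a + 1))) (uptoM μ (K * (2 * a + 1)))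
        (C / (2 * a + 1)) := by
  set cm := cmax lo hi with hcm
  have hcm0 : 0 < cm := by
    have : 0 < 1 - hi := by linarith
    rw [hcm]; unfold cmax; positivity
  set C1 := kappa μ * (4 / lo + 8 * cm / √lo) + 1 with hC1
  have hC10 : 0 < C1 := by
    have := kappa_nonneg μ
    rw [hC1]; positivity
  set A := 4 * cm / √lo with hA
  have hA0 : 0 < A := by rw [hA]; positivity
  refine ⟨min 1 (1 / (32 * C1 ^ 2)), A * C1, by positivity, by positivity, ?_⟩
  intro r hr hr' a K hK
  have h0 : 0 < r := hlo.trans_le hr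
  have h1 : r < 1 := hr'.trans_lt hhi
  set G := 2 * a + 1 with hG
  have hG' : ((G : ℕ) : ℝ) = 2 * (a : ℝ) + 1 := by rw [hG]; push_cast; ring
  rw [← hG'] at hK ⊢
  have hG0 : (0 : ℝ) < G := by rw [hG']; positivity
  have hKG : K ≤ G := by
    have : (K : ℝ) ≤ G := hK.trans (mul_le_of_le_one_left hG0.le (min_le_left _ _))
    exact_mod_cast this
  have hstep : ∀ (c j : ℕ) (L : ℕ), j ≤ G → a ≤ c → c + j * G - G + 1 + a ≤ L →
      (∀ i, i < j → Bd (pairT μ r ^ a * cellT μ r a ^ i) (uptoM μ (a + i * G))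
        (A / √(((i : ℝ) + 1) * G / 2))) →
      Bd (∑ d ∈ range j, pairT μ r ^ (c + d * G) * eHat μ *
          (pairT μ r ^ a * cellT μ r a ^ (j - 1 - d))) (uptoM μ L) (A * C1 / G) := by
    intro c j L hj hc hL ih
    refine (bd_markers μ hlo hr hr' hhi (show 0 < G by omega) c j L _
      (fun d => A / √(((j : ℝ) - d) * G / 2)) (fun d => a + (j - 1 - d) * G) (fun d hd => ?_)
      fun d hd => ?_).mono ?_ (nn_uptoM μ L)
    · have := ih (j - 1 - d) (by omega)
      have e : ((j - 1 - d : ℕ) : ℝ) + 1 = (j : ℝ) - d := by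
        rw [show j - 1 - d = j - (d + 1) by omega, Nat.cast_sub (by omega)]; push_cast; ring
      rwa [e] at this
    · obtain ⟨t, rfl⟩ := Nat.exists_eq_add_of_lt hd
      have e : (d + t + 1) * G = d * G + t * G + G := by ring
      rw [show d + t + 1 - 1 - d = t by omega]
      omega
    · calc kappa μ * _ ≤ kappa μ * (A * (4 / lo + 8 * cm / √lo) / G) :=
            mul_le_mul_of_nonneg_left (step_le hlo hcm0.le hA0.le (by omega) hj (by omega) _
              fun d _ => le_rfl) (kappa_nonneg μ)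
        _ = A * (kappa μ * (4 / lo + 8 * cm / √lo)) / G := by ring
        _ ≤ _ := by
          gcongr
          rw [hC1]; linarith
  have hY : ∀ j, j ≤ K → Bd (pairT μ r ^ a * cellT μ r a ^ j) (uptoM μ (a + j * G))
      (A / √(((j : ℝ) + 1) * G / 2)) := by
    intro j
    induction j using Nat.strong_induction_on with
    | _ j ih =>
      intro hj
      have e : pairT μ r ^ a * cellT μ r a ^ j = pairT μ r ^ (a + j * G) +
          r • ∑ d ∈ range j, pairT μ r ^ (a + a + d * G) * eHat μ *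
            (pairT μ r ^ a * cellT μ r a ^ (j - 1 - d)) := by
        rw [cellT_pow_eq, mul_add, ← pow_add, mul_smul_comm, mul_sum]
        congr 2
        refine sum_congr rfl fun d _ => ?_
        simp only [mul_assoc]
        rw [← mul_assoc, ← pow_add, add_assoc, ← hG]
      rw [e]
      have hx : 0 < ((j : ℝ) + 1) * G / 2 := by positivity
      have h1' : Bd (pairT μ r ^ (a + j * G)) (uptoM μ (a + j * G))
          (cm / √lo / √(((j : ℝ) + 1) * G / 2)) := by
        refine pairT_pow_bd μ h0.le h1.le _ fun i => (bn_le_sup hlo hr hr' hhi _ i).trans ?_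
        rw [div_div, ← Real.sqrt_mul hlo.le]
        gcongr
        push_cast
        linarith [mul_nonneg (j.cast_nonneg (α := ℝ)) hG0.le]
      rcases Nat.eq_zero_or_pos j with rfl | hjpos
      · simp only [range_zero, sum_empty, smul_zero, add_zero]
        refine h1'.mono ?_ (nn_uptoM μ _)
        gcongr
        rw [hA]
        gcongr
        linarith
      have h2' : Bd (r • ∑ d ∈ range j, pairT μ r ^ (a + a + d * G) * eHat μ *
            (pairT μ r ^ a * cellT μ r a ^ (j - 1 - d))) (uptoM μ (a + j * G))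
          (r ^ 2 * (A * C1 / G)) := by
        refine Bd.smul (hstep (a + a) j _ (by omega) (by omega) ?_ fun i hi => ih i hi (by omega)) r
        obtain ⟨t, rfl⟩ : ∃ t, j = t + 1 := ⟨j - 1, by omega⟩
        have : (t + 1) * G = t * G + G := by ring
        omega
      refine (h1'.add_two h2' (nn_uptoM μ _)).mono ?_ (nn_uptoM μ _)
      set x := √(((j : ℝ) + 1) * G / 2) with hxdef
      have hx0 : 0 < x := Real.sqrt_pos.2 hx
      have hr2 : r ^ 2 ≤ 1 := pow_le_one₀ h0.le h1.le
      have hxG : 4 * C1 * x ≤ G := by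
        have hjK : (j : ℝ) + 1 ≤ 2 * K := by
          have h' : j + 1 ≤ 2 * K := by omega
          exact_mod_cast h'
        have hK2 : (K : ℝ) ≤ 1 / (32 * C1 ^ 2) * G :=
          hK.trans (mul_le_mul_of_nonneg_right (min_le_right _ _) hG0.le)
        rw [div_mul_eq_mul_div, one_mul, le_div_iff₀ (by positivity)] at hK2
        rw [hxdef, ← le_div_iff₀' (by positivity), Real.sqrt_le_iff]
        refine ⟨by positivity, ?_⟩
        rw [div_pow, le_div_iff₀ (by positivity)]
        have h3 : ((j : ℝ) + 1) * (16 * C1 ^ 2) ≤ G := by nlinarith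
        nlinarith [mul_le_mul_of_nonneg_right h3 hG0.le, mul_nonneg (sq_nonneg C1) (sq_nonneg (G : ℝ))]
      calc 2 * (cm / √lo / x) + 2 * (r ^ 2 * (A * C1 / G))
          ≤ 2 * (cm / √lo / x) + 2 * (1 * (A * C1 / G)) := by gcongr
        _ ≤ A / (2 * x) + A / (2 * x) := by
            refine add_le_add (le_of_eq (by rw [hA]; ring)) ?_
            rw [one_mul, mul_div_assoc', div_le_div_iff₀ hG0 (by positivity)]
            nlinarith [mul_le_mul_of_nonneg_left hxG hA0.le]
        _ = A / x := by ring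
  rw [cellT_pow_eq, add_sub_cancel_left]
  rcases Nat.eq_zero_or_pos K with rfl | hKpos
  · simpa using bd_zero (nn_uptoM μ _) (show 0 ≤ A * C1 / (G : ℝ) by positivity)
  refine (Bd.smul (hstep a K (K * G) hKG le_rfl ?_ fun i hi => hY i hi.le) r).mono ?_ (nn_uptoM μ _)
  · obtain ⟨t, rfl⟩ : ∃ t, K = t + 1 := ⟨K - 1, by omega⟩
    have : (t + 1) * G = t * G + G := by ring
    omega
  · exact mul_le_of_le_one_left (by positivity) (pow_le_one₀ h0.le h1.le)

end Vale.Agent.P321.Marker
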