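import Vale.Agent.P321.Marker.Pairing
import Vale.Agent.P321.Bino

/-!
Random words made of `Pair` and `Bit` tokens, each of which emits at most one item.
-/

namespace Vale.Agent.P321.Marker

open Finset

set_option linter.unusedSectionVars false
set_option linter.unusedVariables false

variable {M : Type} [Monoid M] in
lemma affine_pow (r : ℝ) (X : Alg M) (j : ℕ) :
    ((1 - r) • (1 : Alg M) + r • X) ^ j = ∑ i ∈ range (j + 1), bn r j i • X ^ i := by
  induction j with
  | zero => simp [bn]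
  | succ j ih =>
    rw [pow_succ, ih, sum_range_succ' _ (j + 1)]
    simp only [bn_succ_succ, bn_succ_zero, add_smul, sum_add_distrib, sum_mul, mul_add,
      smul_mul_assoc, mul_smul_comm, mul_one, ← pow_succ]
    rw [add_comm]
    have h : ∑ i ∈ range (j + 1), ((1 - r) * bn r j (i + 1)) • X ^ (i + 1)
        + ((1 - r) * bn r j 0) • X ^ 0
        = ∑ i ∈ range (j + 1), ((1 - r) * bn r j i) • X ^ i := by
      rw [sum_range_succ _ j, bn_eq_zero r (Nat.lt_succ_self j),
        sum_range_succ' (fun i => ((1 - r) * bn r j i) • X ^ i) j]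
      simp
    rw [add_assoc, h]
    simp only [smul_sum, smul_smul]

/-- An item law together with the likelihood ratio of the second token. -/
structure Model (ι : Type) [Fintype ι] where
  /-- The item law of a pair token. -/
  rho : ι → ℝ
  /-- The likelihood ratio of a bit token. -/
  w : ι → ℝ
  /-- An upper bound on the ratio. -/
  wmax : ℝ
  rho_nn : ∀ i, 0 ≤ rho i
  rho_sum : ∑ i, rho i = 1
  w_nn : ∀ i, 0 ≤ w i
  w_le : ∀ i, w i ≤ wmax
  w_mean : ∑ i, rho i * w i = 1

variable {ι : Type} [Fintype ι] (μ : Model ι)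

/-- The number of items. -/
def len (y : FreeMonoid ι) : ℕ := y.toList.length

lemma len_one : len (1 : FreeMonoid ι) = 0 := rfl

lemma len_mul (x y : FreeMonoid ι) : len (x * y) = len x + len y := List.length_append

lemma len_of (i : ι) : len (FreeMonoid.of i) = 1 := rfl

/-- One item of law `rho`. -/
noncomputable def rhoHat : Alg (FreeMonoid ι) :=
  ∑ i, MonoidAlgebra.single (FreeMonoid.of i) (μ.rho i)

/-- The difference of the two item laws. -/
noncomputable def eHat : Alg (FreeMonoid ι) :=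
  ∑ i, MonoidAlgebra.single (FreeMonoid.of i) (μ.rho i * (μ.w i - 1))

/-- The chi-square distance of the two item laws. -/
noncomputable def kappa : ℝ := ∑ i, μ.rho i * (μ.w i - 1) ^ 2

/-- A pair token. -/
noncomputable def pairT (r : ℝ) : Alg (FreeMonoid ι) :=
  (1 - r) • (1 : Alg (FreeMonoid ι)) + r • rhoHat μ

/-- A bit token. -/
noncomputable def bitT (r : ℝ) : Alg (FreeMonoid ι) := pairT μ r + r • eHat μ

lemma kappa_nonneg : 0 ≤ kappa μ :=
  sum_nonneg fun i _ => mul_nonneg (μ.rho_nn i) (sq_nonneg _)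

lemma wmax_ge_one : 1 ≤ μ.wmax := by
  calc (1 : ℝ) = ∑ i, μ.rho i * μ.w i := μ.w_mean.symm
    _ ≤ ∑ i, μ.rho i * μ.wmax := sum_le_sum fun i _ =>
        mul_le_mul_of_nonneg_left (μ.w_le i) (μ.rho_nn i)
    _ = μ.wmax := by rw [← sum_mul, μ.rho_sum, one_mul]

lemma ev_rhoHat (φ : FreeMonoid ι → ℝ) :
    ev (rhoHat μ) φ = ∑ i, μ.rho i * φ (FreeMonoid.of i) := by
  simp [rhoHat, ev_sum, ev_single]

lemma ev_eHat (φ : FreeMonoid ι → ℝ) :
    ev (eHat μ) φ = ∑ i, μ.rho i * (μ.w i - 1) * φ (FreeMonoid.of i) := by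
  simp [eHat, ev_sum, ev_single]

lemma nn_rhoHat : Nn (rhoHat μ) := fun φ hφ => by
  rw [ev_rhoHat]; exact sum_nonneg fun i _ => mul_nonneg (μ.rho_nn i) (hφ _)

lemma nn_rhoHat_add_eHat : Nn (rhoHat μ + eHat μ) := fun φ hφ => by
  rw [ev_add, ev_rhoHat, ev_eHat, ← sum_add_distrib]
  refine sum_nonneg fun i _ => ?_
  have := mul_nonneg (mul_nonneg (μ.rho_nn i) (μ.w_nn i)) (hφ (FreeMonoid.of i))
  linarith

lemma neg_eHat_le : Le ((-1 : ℝ) • eHat μ) (rhoHat μ) := by
  intro φ hφ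
  have := nn_rhoHat_add_eHat μ φ hφ
  rw [ev_add] at this
  rw [ev_smul]; linarith

lemma eHat_le : Le (eHat μ) ((μ.wmax - 1) • rhoHat μ) := by
  intro φ hφ
  rw [ev_smul, ev_eHat, ev_rhoHat, mul_sum]
  refine sum_le_sum fun i _ => ?_
  nlinarith [mul_nonneg (mul_nonneg (μ.rho_nn i) (hφ (FreeMonoid.of i))) (sub_nonneg.2 (μ.w_le i))]

lemma mass_rhoHat : mass (rhoHat μ) = 1 := by
  rw [← ev_eq_mass, ev_rhoHat]; simpa using μ.rho_sum

lemma mass_eHat : mass (eHat μ) = 0 := by
  rw [← ev_eq_mass, ev_eHat]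
  simp only [mul_one, mul_sub, sum_sub_distrib, μ.w_mean, μ.rho_sum, sub_self]

lemma nn_pairT {r : ℝ} (h0 : 0 ≤ r) (h1 : r ≤ 1) : Nn (pairT μ r) :=
  (nn_one.smul (by linarith)).add ((nn_rhoHat μ).smul h0)

lemma nn_bitT {r : ℝ} (h0 : 0 ≤ r) (h1 : r ≤ 1) : Nn (bitT μ r) := by
  rw [bitT, pairT, add_assoc, ← smul_add]
  exact (nn_one.smul (by linarith)).add ((nn_rhoHat_add_eHat μ).smul h0)

lemma mass_pairT (r : ℝ) : mass (pairT μ r) = 1 := by
  simp [pairT, mass_rhoHat]

lemma mass_bitT (r : ℝ) : mass (bitT μ r) = 1 := by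
  simp [bitT, mass_pairT, mass_eHat]

lemma pairT_pow (r : ℝ) (s : ℕ) :
    pairT μ r ^ s = ∑ i ∈ range (s + 1), bn r s i • rhoHat μ ^ i := affine_pow r (rhoHat μ) s

lemma sq_add_le {a b A B S S' : ℝ} (hA : 0 ≤ A) (hB : 0 ≤ B) (hS : 0 ≤ S) (hS' : 0 ≤ S')
    (ha : a ^ 2 ≤ A * S) (hb : b ^ 2 ≤ B * S') : (a + b) ^ 2 ≤ (A + B) * (S + S') := by
  have := Finset.sum_sq_le_sum_mul_sum_of_sq_le_mul (Finset.univ : Finset Bool)
    (r := fun i => cond i a b) (f := fun i => cond i A B) (g := fun i => cond i S S')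
    (by intro i _; cases i <;> assumption) (by intro i _; cases i <;> assumption)
    (by intro i _; cases i <;> assumption)
  simpa using this

/-- Inserts at distinct positions are orthogonal. -/
lemma orth : ∀ (m : ℕ) (R Y : ℕ → Alg (FreeMonoid ι)) (c : ℕ → ℝ),
    (∀ i, Nn (R i)) → (∀ i, i < m → Le (rhoHat μ * R (i + 1)) (R i)) →
    (∀ i, i < m → Bd (Y i) (R (i + 1)) (c i)) →
    Bd (∑ i ∈ range m, rhoHat μ ^ i * eHat μ * Y i) (R 0) (kappa μ * ∑ i ∈ range m, c i) := by
  intro m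
  induction m with
  | zero =>
    intro R Y c hR _ _
    simpa using bd_zero (hR 0) le_rfl
  | succ m ih =>
    intro R Y c hR hle hY
    set X' := ∑ i ∈ range m, rhoHat μ ^ i * eHat μ * Y (i + 1) with hX'
    have hB : Bd X' (R 1) (kappa μ * ∑ i ∈ range m, c (i + 1)) :=
      ih (fun i => R (i + 1)) (fun i => Y (i + 1)) (fun i => c (i + 1)) (fun i => hR _)
        (fun i hi => hle (i + 1) (by omega)) (fun i hi => hY (i + 1) (by omega))
    have e : ∑ i ∈ range (m + 1), rhoHat μ ^ i * eHat μ * Y i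
        = eHat μ * Y 0 + rhoHat μ * X' := by
      rw [sum_range_succ', add_comm, hX', mul_sum]
      simp [pow_succ', mul_assoc]
    rw [e]
    have h0 := hY 0 (by omega)
    refine ⟨mul_nonneg (kappa_nonneg μ) (sum_nonneg fun i hi => (hY i (mem_range.1 hi)).1),
      fun φ => ?_⟩
    set f : ι → FreeMonoid ι → ℝ := fun i z => φ (FreeMonoid.of i * z) with hf
    set avg : FreeMonoid ι → ℝ := fun z => ∑ i, μ.rho i * f i z with havg
    set V : FreeMonoid ι → ℝ := fun z => ∑ i, μ.rho i * (f i z - avg z) ^ 2 with hV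
    set ψ : FreeMonoid ι → ℝ := fun z => ∑ i, μ.rho i * (μ.w i - 1) * f i z with hψ
    have hV0 : ∀ z, 0 ≤ V z := fun z => sum_nonneg fun i _ =>
      mul_nonneg (μ.rho_nn i) (sq_nonneg _)
    have hsplit : ∀ z, ∑ i, μ.rho i * f i z ^ 2 = V z + avg z ^ 2 := by
      intro z
      have hh : V z = ∑ i, (μ.rho i * f i z ^ 2 - 2 * avg z * (μ.rho i * f i z)
          + avg z ^ 2 * μ.rho i) := sum_congr rfl fun i _ => by ring
      rw [hh, sum_add_distrib, sum_sub_distrib, ← mul_sum, ← mul_sum, μ.rho_sum]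
      simp only [havg]; ring
    have e1 : ev (eHat μ * Y 0) φ = ev (Y 0) ψ := by
      rw [ev_mul, ev_eHat, hψ, ev_fun_sum]
      exact sum_congr rfl fun i _ => (ev_fun_smul _ _ _).symm
    have e2 : ev (rhoHat μ * X') φ = ev X' avg := by
      rw [ev_mul, ev_rhoHat, havg, ev_fun_sum]
      exact sum_congr rfl fun i _ => (ev_fun_smul _ _ _).symm
    have hψV : ∀ z, ψ z ^ 2 ≤ kappa μ * V z := by
      intro z
      have hz : ψ z = ∑ i, μ.rho i * (μ.w i - 1) * (f i z - avg z) := by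
        simp only [mul_sub, sum_sub_distrib, ← sum_mul, hψ, mul_one, μ.w_mean, μ.rho_sum]
        ring
      rw [hz]
      refine Finset.sum_sq_le_sum_mul_sum_of_sq_le_mul univ
        (fun i _ => mul_nonneg (μ.rho_nn i) (sq_nonneg _))
        (fun i _ => mul_nonneg (μ.rho_nn i) (sq_nonneg _)) fun i _ => le_of_eq (by ring)
    have a1 : (ev (Y 0) ψ) ^ 2 ≤ kappa μ * c 0 * ev (R 1) V := by
      refine (h0.2 ψ).trans ?_
      rw [mul_comm (kappa μ) (c 0), mul_assoc]
      refine mul_le_mul_of_nonneg_left ?_ h0.1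
      rw [← ev_fun_smul]
      exact (hR 1).mono hψV
    have a2 := hB.2 avg
    rw [ev_add, e1, e2, sum_range_succ', mul_add, add_comm _ (kappa μ * c 0)]
    refine (sq_add_le (mul_nonneg (kappa_nonneg μ) h0.1) hB.1 ((hR 1) V hV0)
      ((hR 1).evsq avg) a1 a2).trans ?_
    refine mul_le_mul_of_nonneg_left ?_
      (add_nonneg (mul_nonneg (kappa_nonneg μ) h0.1) hB.1)
    refine le_of_eq_of_le ?_ (hle 0 (by omega) (fun y => φ y ^ 2) fun y => sq_nonneg _)
    rw [ev_mul, ev_rhoHat, ← ev_fun_add]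
    simp only [← hsplit]
    rw [ev_fun_sum]
    exact sum_congr rfl fun i _ => ev_fun_smul _ _ _

/-- Multiply the weight of each word by `l` to the power of its length. -/
noncomputable def scaleLen (l : ℝ) :
    Alg (FreeMonoid ι) →ₐ[ℝ] Alg (FreeMonoid ι) :=
  MonoidAlgebra.lift ℝ (Alg (FreeMonoid ι)) (FreeMonoid ι)
    { toFun := fun y => MonoidAlgebra.single y (l ^ len y)
      map_one' := by simp [MonoidAlgebra.one_def, len_one]
      map_mul' := fun x y => by simp [MonoidAlgebra.single_mul_single, len_mul, pow_add] }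

lemma ev_scaleLen (l : ℝ) (f : Alg (FreeMonoid ι)) (φ : FreeMonoid ι → ℝ) :
    ev (scaleLen l f) φ = ev f (fun y => l ^ len y * φ y) := by
  induction f using MonoidAlgebra.induction_linear with
  | zero => simp [ev_zero]
  | add a b ha hb => rw [map_add, ev_add, ev_add, ha, hb]
  | single u x =>
    rw [scaleLen, MonoidAlgebra.lift_single, ev_smul]
    simp [ev_single]

lemma scaleLen_rhoHat (l : ℝ) : scaleLen l (rhoHat μ) = l • rhoHat μ := by
  simp [rhoHat, scaleLen, map_sum, smul_sum, len_of, mul_comm]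

lemma scaleLen_eHat (l : ℝ) : scaleLen l (eHat μ) = l • eHat μ := by
  simp [eHat, scaleLen, map_sum, smul_sum, len_of, mul_comm]

lemma pairT_tilt {r s c l : ℝ} (h1 : 1 - r = c * (1 - s)) (h2 : r = c * (s * l)) :
    pairT μ r = c • scaleLen l (pairT μ s) := by
  simp only [pairT, map_add, map_smul, map_one, scaleLen_rhoHat, smul_add, smul_smul]
  rw [h1, show c * (s * l) = r from h2.symm]

lemma bitT_tilt {r s c l : ℝ} (h1 : 1 - r = c * (1 - s)) (h2 : r = c * (s * l)) :
    bitT μ r = c • scaleLen l (bitT μ s) := by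
  rw [bitT, bitT, pairT_tilt μ h1 h2]
  simp only [map_add, map_smul, scaleLen_eHat, smul_add, smul_smul]
  rw [show c * (s * l) = r from h2.symm]

/-- Test functions that agree on words of length `n` agree on `f`. -/
def Homog (f : Alg (FreeMonoid ι)) (n : ℕ) : Prop :=
  ∀ φ ψ : FreeMonoid ι → ℝ, (∀ y, len y = n → φ y = ψ y) → ev f φ = ev f ψ

lemma Homog.mul {f g : Alg (FreeMonoid ι)} {a b : ℕ} (hf : Homog f a) (hg : Homog g b) :
    Homog (f * g) (a + b) := fun φ ψ h => by
  rw [ev_mul, ev_mul]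
  exact hf _ _ fun u hu => hg _ _ fun v hv => h _ (by rw [len_mul, hu, hv])

lemma homog_rhoHat : Homog (rhoHat μ) 1 := fun φ ψ h => by
  rw [ev_rhoHat, ev_rhoHat]
  exact sum_congr rfl fun i _ => by rw [h _ (len_of i)]

lemma homog_eHat : Homog (eHat μ) 1 := fun φ ψ h => by
  rw [ev_eHat, ev_eHat]
  exact sum_congr rfl fun i _ => by rw [h _ (len_of i)]

lemma homog_rhoHat_pow (n : ℕ) : Homog (rhoHat μ ^ n) n := by
  induction n with
  | zero =>
    intro φ ψ h
    rw [pow_zero, ev_one, ev_one, h 1 len_one]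
  | succ n ih => rw [pow_succ]; exact ih.mul (homog_rhoHat μ)

lemma Homog.ev_len {f : Alg (FreeMonoid ι)} {n : ℕ} (hf : Homog f n) (χ : ℕ → ℝ)
    (φ : FreeMonoid ι → ℝ) : ev f (fun y => χ (len y) * φ y) = χ n * ev f φ := by
  rw [← ev_fun_smul]
  exact hf _ _ fun y hy => by rw [hy]

/-- Restrict to words whose length lies in `I`. -/
noncomputable def cut (I : Finset ℕ) (f : Alg (FreeMonoid ι)) : Alg (FreeMonoid ι) :=
  MonoidAlgebra.ofCoeff (f.coeff.filter fun y => len y ∈ I)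

/-- The indicator of a length set. -/
noncomputable def ind (I : Finset ℕ) (n : ℕ) : ℝ := if n ∈ I then 1 else 0

lemma ind_nonneg (I : Finset ℕ) (n : ℕ) : 0 ≤ ind I n := by
  unfold ind; split <;> norm_num

lemma ev_cut (I : Finset ℕ) (f : Alg (FreeMonoid ι)) (φ : FreeMonoid ι → ℝ) :
    ev (cut I f) φ = ev f (fun y => ind I (len y) * φ y) := by
  classical
  rw [ev_eq_sum (cut I f) φ f.coeff.support (by simp [cut, Finsupp.support_filter]), ev_eq_sum f _ f.coeff.support subset_rfl]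
  refine sum_congr rfl fun y _ => ?_
  simp only [cut, ind, Finsupp.filter_apply]
  split <;> simp

lemma Nn.cut {f : Alg (FreeMonoid ι)} (hf : Nn f) (I : Finset ℕ) :
    Nn (Vale.Agent.P321.Marker.cut I f) :=
  fun φ hφ => by rw [ev_cut]; exact hf _ fun y => mul_nonneg (ind_nonneg _ _) (hφ y)

lemma cut_le {f : Alg (FreeMonoid ι)} (hf : Nn f) (I : Finset ℕ) :
    Le (Vale.Agent.P321.Marker.cut I f) f := fun φ hφ => by
  rw [ev_cut]
  refine hf.mono fun y => ?_
  unfold ind; split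
  · simp
  · simpa using hφ y

end Vale.Agent.P321.Marker
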