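import Vale.Agent.P321.Marker.Chain

/-!
The laws of `K` and `K + 1` marker cells share a constant part when `K` is a small multiple of the
cell length.
-/

namespace Vale.Agent.P321.Marker

open Finset
open Vale.Agent.P321

set_option linter.unusedSectionVars false
set_option linter.unusedVariables false

variable {M : Type} [Monoid M]

lemma alg_ext {f g : Alg M} (h : ∀ φ, ev f φ = ev g φ) : f = g := by
  classical
  refine MonoidAlgebra.coeff_injective (Finsupp.ext fun y => ?_)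
  rw [← ev_indicator f y, ← ev_indicator g y, h]

lemma absLE_of_le {f g : Alg M} (hf : Nn f) (h : Le f g) : AbsLE f g := fun y => by
  rw [abs_of_nonneg (hf.coeff y)]; exact h.coeff y

lemma nrm_eq_ev (f : Alg M) :
    nrm f = ev f (fun y => if 0 ≤ f.coeff y then 1 else -1) := by
  rw [nrm_eq_sum f subset_rfl, ev_eq_sum f _ _ subset_rfl]
  refine sum_congr rfl fun y _ => ?_
  split
  · rw [abs_of_nonneg (by assumption), mul_one]
  · rw [abs_of_neg (lt_of_not_ge (by assumption))]; ring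

variable {ι : Type} [Fintype ι] (μ : Model ι)

lemma cut_add (I : Finset ℕ) (f g : Alg (FreeMonoid ι)) : cut I (f + g) = cut I f + cut I g :=
  alg_ext fun φ => by simp [ev_cut, ev_add]

lemma cut_pairT_pow (I : Finset ℕ) (r : ℝ) (N : ℕ) (hI : ∀ n ∈ I, n ≤ N) :
    cut I (pairT μ r ^ N) = ∑ n ∈ I, bn r N n • rhoHat μ ^ n := by
  refine alg_ext fun φ => ?_
  rw [ev_cut, pairT_pow, ev_sum, ev_sum]
  have e : ∀ n : ℕ, ev (bn r N n • rhoHat μ ^ n) (fun y => ind I (len y) * φ y)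
      = ind I n * ev (bn r N n • rhoHat μ ^ n) φ := fun n => by
    rw [ev_smul, ev_smul, (homog_rhoHat_pow μ n).ev_len]; ring
  simp only [e]
  rw [← sum_subset (fun n hn => mem_range.2 (Nat.lt_succ_of_le (hI n hn))) fun n _ hn => by
    simp [ind, hn]]
  exact sum_congr rfl fun n hn => by simp [ind, hn]

lemma nrm_cut_le {f : Alg (FreeMonoid ι)} {L : ℕ} {c : ℝ} (h : Bd f (uptoM μ L) c)
    (I : Finset ℕ) : nrm (cut I f) ≤ √(c * (I.card : ℝ)) := by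
  rw [nrm_eq_ev, ev_cut]
  set σ : FreeMonoid ι → ℝ := fun y => if 0 ≤ (cut I f).coeff y then 1 else -1 with hσ
  refine Real.le_sqrt_of_sq_le ((h.2 _).trans (mul_le_mul_of_nonneg_left ?_ h.1))
  have hσ2 : ∀ y, σ y ^ 2 = 1 := fun y => by simp only [hσ]; split <;> norm_num
  have hi : ∀ n, ind I n ^ 2 = ind I n := fun n => by unfold ind; split <;> norm_num
  have e : (fun y : FreeMonoid ι => (ind I (len y) * σ y) ^ 2)
      = fun y => ind I (len y) * 1 := by funext y; rw [mul_pow, hσ2, hi]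
  rw [e, uptoM, ev_sum]
  calc ∑ n ∈ range (L + 1), ev (rhoHat μ ^ n) (fun y => ind I (len y) * 1)
      = ∑ n ∈ range (L + 1), ind I n := by
        refine sum_congr rfl fun n _ => ?_
        rw [(homog_rhoHat_pow μ n).ev_len, ev_eq_mass, map_pow, mass_rhoHat, one_pow, mul_one]
    _ = (((range (L + 1)).filter (· ∈ I)).card : ℝ) := by
        simp only [ind]; rw [sum_boole]
    _ ≤ (I.card : ℝ) := by
        exact_mod_cast card_le_card (show (range (L + 1)).filter (· ∈ I) ⊆ I from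
          fun n hn => (mem_filter.1 hn).2)

lemma cellT_tilt {r s c l : ℝ} (h1 : 1 - r = c * (1 - s)) (h2 : r = c * (s * l)) (a : ℕ) :
    cellT μ r a = c ^ (2 * a + 1) • scaleLen l (cellT μ s a) := by
  simp only [cellT, pairT_tilt μ h1 h2, bitT_tilt μ h1 h2, map_mul, map_pow, _root_.smul_pow,
    smul_mul_assoc, mul_smul_comm, smul_smul]
  congr 1
  ring

lemma bn_tilt {r s c l : ℝ} (h1 : 1 - r = c * (1 - s)) (h2 : r = c * (s * l)) {N n : ℕ}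
    (hn : n ≤ N) : bn r N n = c ^ N * l ^ n * bn s N n := by
  obtain ⟨m, rfl⟩ := Nat.exists_eq_add_of_le hn
  unfold bn
  rw [h1, Nat.add_sub_cancel_left]
  nth_rewrite 1 [h2]
  rw [mul_pow, mul_pow, mul_pow, pow_add]
  ring

lemma nn_cellT {r : ℝ} (h0 : 0 ≤ r) (h1 : r ≤ 1) (a : ℕ) : Nn (cellT μ r a) :=
  (((nn_pairT μ h0 h1).pow a).mul (nn_bitT μ h0 h1)).mul ((nn_pairT μ h0 h1).pow a)

/-- Transfer a window from the tilted law. -/
lemma tilt_cut_le {r s ρ : ℝ} (hr0 : 0 < r) (hr1 : r < 1) (hs0 : 0 < s) (hs1 : s < 1) (a K : ℕ)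
    (I : Finset ℕ) (hI : ∀ n ∈ I, n ≤ K * (2 * a + 1))
    (hρ : ∀ n ∈ I, ρ * bn s (K * (2 * a + 1)) n ≤ bn r (K * (2 * a + 1)) n) :
    Le (ρ • cut I (cellT μ s a ^ K)) (cellT μ r a ^ K) := by
  set N := K * (2 * a + 1) with hN
  set c := (1 - r) / (1 - s) with hc
  set l := r / (c * s) with hl
  have hs' : 0 < 1 - s := by linarith
  have hr' : 0 < 1 - r := by linarith
  have hc0 : 0 < c := by rw [hc]; positivity
  have hl0 : 0 < l := by rw [hl]; positivity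
  have h1 : 1 - r = c * (1 - s) := by rw [hc]; field_simp
  have h2 : r = c * (s * l) := by rw [hl]; field_simp
  intro φ hφ
  rw [ev_smul, ev_cut, cellT_tilt μ h1 h2, _root_.smul_pow, ← map_pow, ev_smul, ev_scaleLen,
    ← pow_mul, mul_comm (2 * a + 1) K, ← hN, ← ev_fun_smul, ← ev_fun_smul]
  refine ((nn_cellT μ hs0.le hs1.le a).pow K).mono fun y => ?_
  unfold ind
  split
  · rename_i hy
    have hb : 0 < bn s N (len y) := by
      have := Nat.choose_pos (hI _ hy)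
      unfold bn
      have : (0 : ℝ) < (N.choose (len y) : ℝ) := by exact_mod_cast this
      positivity
    have key := hρ _ hy
    rw [bn_tilt h1 h2 (hI _ hy)] at key
    have : ρ ≤ c ^ N * l ^ len y := le_of_mul_le_mul_right key hb
    rw [one_mul, ← mul_assoc]
    exact mul_le_mul_of_nonneg_right this (hφ y)
  · rw [zero_mul, mul_zero]
    have := hφ y
    positivity

/-- A lower bound on the whole window. -/
lemma window_low {lo hi σ Q w kG : ℝ} {N n : ℕ} (hlo : 0 < lo) (hσ : lo ≤ σ) (hσ' : σ ≤ hi)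
    (hhi : hi < 1) (hQ : Q = lo * (1 - hi)) (hw1 : 1 ≤ w) (hw2 : w ^ 2 ≤ 2 * kG)
    (hN1 : kG ≤ (N : ℝ)) (hN2 : (N : ℝ) ≤ w ^ 2) (hws : 4 * w ≤ Q / 2 * kG)
    (hnN : n ≤ N) (htn : |(n : ℝ) - σ * N| ≤ w) :
    Real.exp (-(16 / Q)) / 8 / w ≤ bn σ N n := by
  have hQ0 : 0 < Q := by
    have : 0 < 1 - hi := by linarith
    rw [hQ]; positivity
  have hkG : 0 ≤ kG := by nlinarith
  refine le_trans ?_ (bn_ge_near hlo hσ hσ' hhi N n hnN htn ?_)
  · have hsq : √((N : ℝ) + 1) ≤ 2 * w := by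
      rw [Real.sqrt_le_iff]; refine ⟨by positivity, ?_⟩
      nlinarith
    have e : Real.exp (-(16 / Q)) / 8 / w = (4 * (2 * w))⁻¹ * Real.exp (-(16 / Q)) := by
      field_simp; ring
    rw [e]
    refine mul_le_mul (inv_anti₀ (by positivity) (by linarith))
      (Real.exp_le_exp.2 (neg_le_neg ?_)) (by positivity) (by positivity)
    rw [← hQ, div_le_div_iff₀ (by positivity) hQ0]
    have h4 : (w + 1) ^ 2 ≤ 4 * w ^ 2 := by nlinarith
    calc 2 * (w + 1) ^ 2 * Q ≤ 16 * ((N : ℝ) + 1) * Q :=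
          mul_le_mul_of_nonneg_right (by linarith) hQ0.le
      _ = 16 * (Q * ((N : ℝ) + 1)) := by ring
  · rw [← hQ]
    have : Q / 2 * kG ≤ Q * ((N : ℝ) + 1) := by nlinarith
    linarith

/-- The original law dominates the tilted one on the window. -/
lemma window_ratio {lo hi σ r Q w G θ kG : ℝ} {N n : ℕ} (hlo : 0 < lo) (hσ : lo ≤ σ)
    (hσ' : σ ≤ hi) (hr : lo ≤ r) (hr' : r ≤ hi) (hhi : hi < 1) (hQ : Q = lo * (1 - hi))
    (hθ : 0 < θ) (hG : 0 ≤ G) (hw1 : 1 ≤ w) (hw2 : w ^ 2 ≤ 2 * kG)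
    (hG2 : G * G ≤ 2 / θ * kG) (hN1 : kG ≤ (N : ℝ)) (hws : 4 * w ≤ Q / 2 * kG)
    (hGs : 2 * G ≤ Q / 2 * kG) (hnN : n ≤ N) (htn : |(n : ℝ) - r * N| ≤ w + G) :
    Real.exp (-((32 + 8 / θ) / Q)) * √lo / (4 * cmax lo hi) * bn σ N n ≤ bn r N n := by
  have hh : 0 < 1 - hi := by linarith
  have hQ0 : 0 < Q := by rw [hQ]; positivity
  have hcm : 0 < cmax lo hi := by unfold cmax; positivity
  have hkG : 0 ≤ kG := by nlinarith
  refine le_trans ?_ (bn_ge_near hlo hr hr' hhi N n hnN htn ?_)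
  · refine (mul_le_mul_of_nonneg_left (bn_le_sup hlo hσ hσ' hhi N n) (by positivity)).trans ?_
    rw [Real.sqrt_mul hlo.le]
    have e : Real.exp (-((32 + 8 / θ) / Q)) * √lo / (4 * cmax lo hi) *
          (cmax lo hi / (√lo * √((N : ℝ) + 1)))
        = (4 * √((N : ℝ) + 1))⁻¹ * Real.exp (-((32 + 8 / θ) / Q)) := by field_simp
    rw [e]
    refine mul_le_mul_of_nonneg_left (Real.exp_le_exp.2 (neg_le_neg ?_)) (by positivity)
    rw [← hQ, div_le_div_iff₀ (by positivity) hQ0]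
    have h1 : (w + G + 1) ^ 2 ≤ 8 * w ^ 2 + 2 * G ^ 2 := by nlinarith [sq_nonneg (2 * w - G)]
    have h4 : 2 * (w + G + 1) ^ 2 ≤ (32 + 8 / θ) * ((N : ℝ) + 1) := by
      have h5 : 4 * (2 / θ * kG) = 8 / θ * kG := by ring
      have h6 : (32 + 8 / θ) * kG ≤ (32 + 8 / θ) * ((N : ℝ) + 1) := by gcongr; linarith
      nlinarith
    calc 2 * (w + G + 1) ^ 2 * Q ≤ (32 + 8 / θ) * ((N : ℝ) + 1) * Q :=
          mul_le_mul_of_nonneg_right h4 hQ0.le
      _ = _ := by ring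
  · rw [← hQ]
    have : Q * kG ≤ Q * ((N : ℝ) + 1) := mul_le_mul_of_nonneg_left (by linarith) hQ0.le
    linarith

/-- The common part of two perturbed window laws. -/
lemma mass_common {c₁ e : ℝ} {I : Finset ℕ} (b b' : ℕ → ℝ) (Z Z' : Alg (FreeMonoid ι))
    (hmin : c₁ ≤ ∑ n ∈ I, min (b n) (b' n)) (hZ : nrm Z ≤ e) (hZ' : nrm Z' ≤ e) :
    c₁ - 2 * e ≤ mass ((1 / 2 : ℝ) • ((∑ n ∈ I, b n • rhoHat μ ^ n + Z)
      + (∑ n ∈ I, b' n • rhoHat μ ^ n + Z')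
      - absM ((∑ n ∈ I, b n • rhoHat μ ^ n + Z) - (∑ n ∈ I, b' n • rhoHat μ ^ n + Z')))) := by
  set B := ∑ n ∈ I, b n • rhoHat μ ^ n with hB
  set B' := ∑ n ∈ I, b' n • rhoHat μ ^ n with hB'
  have hQd : nrm (B - B') ≤ ∑ n ∈ I, |b n - b' n| := by
    rw [hB, hB', ← sum_sub_distrib]
    refine (nrm_sum_le _ _).trans (sum_le_sum fun n _ => ?_)
    rw [← sub_smul, nrm_smul]
    refine mul_le_of_le_one_right (abs_nonneg _) ?_
    have := (absLE_of_le ((nn_rhoHat μ).pow n) (Le.refl _)).nrm_le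
    rwa [map_pow, mass_rhoHat, one_pow] at this
  have hd : nrm (B + Z - (B' + Z')) ≤ ∑ n ∈ I, |b n - b' n| + (nrm Z + nrm Z') := by
    rw [add_sub_add_comm]
    exact (nrm_add_le _ _).trans (add_le_add hQd (nrm_sub_le _ _))
  have hm : ∀ g : ℕ → ℝ, mass (∑ n ∈ I, g n • rhoHat μ ^ n) = ∑ n ∈ I, g n := by
    intro g
    simp only [map_sum, map_smul, map_pow, mass_rhoHat, one_pow, smul_eq_mul, mul_one]
  have hmm : ∑ n ∈ I, min (b n) (b' n)
      = (∑ n ∈ I, b n + ∑ n ∈ I, b' n - ∑ n ∈ I, |b n - b' n|) / 2 := by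
    rw [← sum_add_distrib, ← sum_sub_distrib, Finset.sum_div]
    refine sum_congr rfl fun n _ => ?_
    rcases le_total (b n) (b' n) with h | h
    · rw [min_eq_left h, abs_of_nonpos (sub_nonpos.2 h)]; ring
    · rw [min_eq_right h, abs_of_nonneg (sub_nonneg.2 h)]; ring
  rw [map_smul, map_sub, smul_eq_mul]
  simp only [map_add]
  rw [hB, hB', hm, hm, ← hB, ← hB']
  change c₁ - 2 * e ≤ 1 / 2 * (∑ n ∈ I, b n + mass Z + (∑ n ∈ I, b' n + mass Z') - nrm _)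
  linarith [neg_abs_le (mass Z), abs_mass_le_nrm Z, neg_abs_le (mass Z'), abs_mass_le_nrm Z']

/-- The window: integers within `w` of `x`. -/
lemma window_card {x w : ℝ} (hw : 1 ≤ w) (hx : w ≤ x) :
    ((Icc ⌈x - w⌉₊ ⌊x + w⌋₊).card : ℝ) ≤ 3 * w ∧ w ≤ ((Icc ⌈x - w⌉₊ ⌊x + w⌋₊).card : ℝ) ∧
      ∀ n ∈ Icc ⌈x - w⌉₊ ⌊x + w⌋₊, |(n : ℝ) - x| ≤ w := by
  have a1 : (⌈x - w⌉₊ : ℝ) < x - w + 1 := Nat.ceil_lt_add_one (by linarith)
  have a2 : x - w ≤ (⌈x - w⌉₊ : ℝ) := Nat.le_ceil _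
  have a3 : (⌊x + w⌋₊ : ℝ) ≤ x + w := Nat.floor_le (by linarith)
  have a4 : x + w < (⌊x + w⌋₊ : ℝ) + 1 := Nat.lt_floor_add_one _
  have hle : ⌈x - w⌉₊ ≤ ⌊x + w⌋₊ + 1 := by
    have : (⌈x - w⌉₊ : ℝ) ≤ ((⌊x + w⌋₊ + 1 : ℕ) : ℝ) := by push_cast; linarith
    exact_mod_cast this
  rw [Nat.card_Icc, Nat.cast_sub hle]
  push_cast
  refine ⟨by linarith, by linarith, fun n hn => ?_⟩
  rw [mem_Icc] at hn
  have b1 : (⌈x - w⌉₊ : ℝ) ≤ n := Nat.cast_le.2 hn.1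
  have b2 : (n : ℝ) ≤ (⌊x + w⌋₊ : ℝ) := Nat.cast_le.2 hn.2
  rw [abs_le]; constructor <;> linarith

/-- Side conditions for the window. -/
lemma window_params {K G Q : ℝ} (hQ0 : 0 < Q) (hQ1 : Q ≤ 1) (hK : 256 / Q ^ 2 ≤ K) (hG : 1 ≤ G) :
    4 * √((K + 1) * G) ≤ Q / 2 * (K * G) ∧ 2 * G ≤ Q / 2 * (K * G) ∧
      √((K + 1) * G) ^ 2 ≤ 2 * (K * G) := by
  rw [div_le_iff₀ (by positivity)] at hK
  have hK1 : 256 ≤ Q * K := by
    have : Q ^ 2 * K ≤ Q * K := by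
      have : 0 ≤ K := by
        by_contra h
        nlinarith [mul_neg_of_neg_of_pos (lt_of_not_ge h) (show (0 : ℝ) < Q ^ 2 by positivity)]
      exact mul_le_mul_of_nonneg_right (by nlinarith) this
    linarith
  have hK0 : 1 ≤ K := by nlinarith
  have h0 : 0 ≤ (K + 1) * G := by positivity
  have hw2 : √((K + 1) * G) ^ 2 ≤ 2 * (K * G) := by
    rw [Real.sq_sqrt h0]; nlinarith
  refine ⟨?_, by nlinarith, hw2⟩
  rw [← pow_le_pow_iff_left₀ (by positivity) (by positivity) two_ne_zero, mul_pow]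
  have h1 : 256 * (K * G) ≤ Q ^ 2 * (K * G) ^ 2 := by
    calc 256 * (K * G) ≤ K * Q ^ 2 * (K * G) := mul_le_mul_of_nonneg_right hK (by positivity)
      _ = Q ^ 2 * (K * G) * K * 1 := by ring
      _ ≤ Q ^ 2 * (K * G) * K * G := by gcongr
      _ = _ := by ring
  nlinarith

/-- The tilts that centre both laws at the same point. -/
lemma window_geom {r K G w x Q : ℝ} (hr0 : 0 < r) (hr1 : r < 1) (hK : 1 ≤ K) (hG : 0 < G)
    (hKr : r ≤ K * (1 - r)) (hx : x = r * G * (K + 1 / 2)) (hQ : Q = r / 2 * (1 - (1 + r) / 2))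
    (hw0 : 0 ≤ w) (hws : 4 * w ≤ Q / 2 * (K * G)) :
    (r / 2 ≤ x / (K * G) ∧ x / (K * G) ≤ (1 + r) / 2 ∧
      r / 2 ≤ x / ((K + 1) * G) ∧ x / ((K + 1) * G) ≤ (1 + r) / 2) ∧
    w ≤ x ∧ x + w ≤ K * G ∧ |r * (K * G) - x| ≤ G ∧ |r * ((K + 1) * G) - x| ≤ G := by
  have hKG : 0 < K * G := by positivity
  have hKG1 : 0 < (K + 1) * G := by positivity
  have b1 : r / 2 * (K * G) ≤ x := by rw [hx]; nlinarith
  have b2 : x ≤ (1 + r) / 2 * (K * G) := by rw [hx]; nlinarith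
  have b3 : r / 2 * ((K + 1) * G) ≤ x := by rw [hx]; nlinarith
  have hQa : Q ≤ 1 - (1 + r) / 2 := by rw [hQ]; nlinarith
  have hQb : Q ≤ r / 2 := by rw [hQ]; nlinarith
  have c1 := mul_le_mul_of_nonneg_right hQa hKG.le
  have c2 := mul_le_mul_of_nonneg_right hQb hKG.le
  have hKG2 : K * G ≤ (K + 1) * G := by nlinarith
  refine ⟨⟨?_, ?_, ?_, ?_⟩, by linarith, by linarith, ?_, ?_⟩
  · rw [le_div_iff₀ hKG]; linarith
  · rw [div_le_iff₀ hKG]; linarith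
  · rw [le_div_iff₀ hKG1]; linarith
  · rw [div_le_iff₀ hKG1]
    nlinarith [mul_le_mul_of_nonneg_left hKG2 (show (0 : ℝ) ≤ (1 + r) / 2 by linarith)]
  · rw [hx, abs_le]; constructor <;> nlinarith
  · rw [hx, abs_le]; constructor <;> nlinarith

/-- A number of cells, two tilts and a window. -/
lemma window_exists {r θ : ℝ} (hr0 : 0 < r) (hr1 : r < 1) (hθ : 0 < θ) (hθb : θ ≤ 1 / 2)
    (G : ℕ) (hG1 : (1 : ℝ) ≤ G)
    (hθG : 256 / (r / 2 * (1 - (1 + r) / 2)) ^ 2 + r / (1 - r) + 5 ≤ θ * G) :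
    ∃ (K : ℕ) (s s' : ℝ) (I : Finset ℕ),
      (4 : ℝ) ≤ K ∧ (K : ℝ) ≤ θ * G ∧
      r / 2 ≤ s ∧ s ≤ (1 + r) / 2 ∧ r / 2 ≤ s' ∧ s' ≤ (1 + r) / 2 ∧
      (∀ n ∈ I, n ≤ K * G) ∧ (∀ n ∈ I, n ≤ (K + 1) * G) ∧
      (I.card : ℝ) ≤ 3 * √(((K : ℝ) + 1) * G) ∧
      Real.exp (-(16 / (r / 2 * (1 - (1 + r) / 2)))) / 8
        ≤ ∑ n ∈ I, min (bn s (K * G) n) (bn s' ((K + 1) * G) n) ∧
      (∀ n ∈ I, Real.exp (-((32 + 8 / θ) / (r / 2 * (1 - (1 + r) / 2)))) * √(r / 2) /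
        (4 * cmax (r / 2) ((1 + r) / 2)) * bn s (K * G) n ≤ bn r (K * G) n) ∧
      (∀ n ∈ I, Real.exp (-((32 + 8 / θ) / (r / 2 * (1 - (1 + r) / 2)))) * √(r / 2) /
        (4 * cmax (r / 2) ((1 + r) / 2)) * bn s' ((K + 1) * G) n ≤ bn r ((K + 1) * G) n) := by
  set lo := r / 2 with hlo_def
  set hi := (1 + r) / 2 with hhi_def
  have hlo : 0 < lo := by rw [hlo_def]; linarith
  have hhi : hi < 1 := by rw [hhi_def]; linarith
  have hlr : lo ≤ r := by rw [hlo_def]; linarith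
  have hrh : r ≤ hi := by rw [hhi_def]; linarith
  set Q₀ := lo * (1 - hi) with hQ₀
  have hQ0 : 0 < Q₀ := by
    have : 0 < 1 - hi := by linarith
    rw [hQ₀]; positivity
  have hQ1 : Q₀ ≤ 1 := by
    rw [hQ₀]; exact mul_le_one₀ (by linarith) (by linarith) (by linarith)
  set c₁ := Real.exp (-(16 / Q₀)) / 8 with hc₁
  have hc10 : 0 < c₁ := by rw [hc₁]; positivity
  set cm := cmax lo hi with hcm_def
  set ρ₀ := Real.exp (-((32 + 8 / θ) / Q₀)) * √lo / (4 * cm) with hρ₀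
  set K₀ := 256 / Q₀ ^ 2 + r / (1 - r) + 4 with hK₀
  replace hθG : K₀ + 1 ≤ θ * G := by rw [hK₀]; linarith
  have hG0 : (0 : ℝ) < G := by linarith
  set K := ⌊θ * (G : ℝ)⌋₊ with hK
  have hK1 : (K : ℝ) ≤ θ * G := Nat.floor_le (by positivity)
  have hK2 : θ * G < (K : ℝ) + 1 := Nat.lt_floor_add_one _
  have hr' : 0 < 1 - r := by linarith
  have hK00 : 256 / Q₀ ^ 2 + r / (1 - r) + 4 ≤ (K : ℝ) := by rw [← hK₀]; linarith
  have hKQ : 256 / Q₀ ^ 2 ≤ (K : ℝ) := by linarith [div_nonneg hr0.le hr'.le]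
  have hKr : r / (1 - r) ≤ (K : ℝ) := by
    linarith [show (0 : ℝ) ≤ 256 / Q₀ ^ 2 by positivity]
  have hK4 : (4 : ℝ) ≤ K := by
    linarith [div_nonneg hr0.le hr'.le, show (0 : ℝ) ≤ 256 / Q₀ ^ 2 by positivity]
  have hK0 : (0 : ℝ) < K := by linarith
  rw [div_le_iff₀ hr'] at hKr
  -- the window
  set w := √(((K : ℝ) + 1) * G) with hw
  have hw2 : w ^ 2 = ((K : ℝ) + 1) * G := Real.sq_sqrt (by positivity)
  have hw1 : 1 ≤ w := by
    rw [hw, Real.one_le_sqrt]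
    exact one_le_mul_of_one_le_of_one_le (le_add_of_nonneg_left hK0.le) hG1
  set nstar := r * G * ((K : ℝ) + 1 / 2) with hnstar
  set s := nstar / ((K : ℝ) * G) with hs
  set s' := nstar / (((K : ℝ) + 1) * G) with hs'
  have hsK : s * (((K * G : ℕ) : ℝ)) = nstar := by
    rw [hs]; push_cast; field_simp
  have hs'K : s' * ((((K + 1) * G : ℕ) : ℝ)) = nstar := by
    rw [hs']; push_cast; field_simp
  obtain ⟨hwsmall, hGsmall, hw2'⟩ := window_params hQ0 hQ1 hKQ hG1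
  rw [← hw] at hwsmall hw2'
  obtain ⟨⟨hs_lo, hs_hi, hs'_lo, hs'_hi⟩, hwx, hxw, hrN0, hrN0'⟩ :=
    window_geom hr0 hr1 (by linarith) hG0 hKr hnstar (by rw [hQ₀, hlo_def, hhi_def])
      (zero_le_one.trans hw1) hwsmall
  rw [← hs, ← hlo_def] at hs_lo
  rw [← hs, ← hhi_def] at hs_hi
  rw [← hs', ← hlo_def] at hs'_lo
  rw [← hs', ← hhi_def] at hs'_hi
  set I := Icc ⌈nstar - w⌉₊ ⌊nstar + w⌋₊ with hI
  obtain ⟨hcard1, hcard2, hI1⟩ := window_card hw1 hwx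
  rw [← hI] at hcard1 hcard2 hI1
  have hIK : ∀ n ∈ I, n ≤ K * G := by
    intro n hn
    have h := abs_le.1 (hI1 n hn)
    have : (n : ℝ) ≤ ((K * G : ℕ) : ℝ) := by push_cast; linarith [h.2]
    exact_mod_cast this
  have hIK' : ∀ n ∈ I, n ≤ (K + 1) * G := fun n hn => (hIK n hn).trans (by gcongr; omega)
  -- the window in the two laws
  have hG2 : (G : ℝ) * G ≤ 2 / θ * ((K : ℝ) * G) := by
    have h2 : (G : ℝ) ≤ 2 / θ * K := by
      rw [div_mul_eq_mul_div, le_div_iff₀ hθ, mul_comm]; linarith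
    have := mul_le_mul_of_nonneg_right h2 hG0.le
    linarith
  have hlow : ∀ (σ : ℝ) (N : ℕ), lo ≤ σ → σ ≤ hi → σ * (N : ℝ) = nstar →
      (K : ℝ) * G ≤ N → (N : ℝ) ≤ ((K : ℝ) + 1) * G → ∀ n ∈ I, n ≤ N →
      c₁ / w ≤ bn σ N n := by
    intro σ N hσ hσ' hσN hN1 hN2 n hn hnN
    rw [hc₁]
    exact window_low hlo hσ hσ' hhi hQ₀ hw1 hw2' hN1 (by rw [hw2]; exact hN2) hwsmall hnN
      (by rw [hσN]; exact hI1 n hn)
  have hrat : ∀ (σ : ℝ) (N : ℕ), lo ≤ σ → σ ≤ hi → σ * (N : ℝ) = nstar → |r * (N : ℝ) - nstar| ≤ G →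
      (K : ℝ) * G ≤ N → (N : ℝ) ≤ ((K : ℝ) + 1) * G → ∀ n ∈ I, n ≤ N →
      ρ₀ * bn σ N n ≤ bn r N n := by
    intro σ N hσ hσ' hσN hrN hN1 hN2 n hn hnN
    rw [hρ₀, hcm_def]
    refine window_ratio hlo hσ hσ' hlr hrh hhi hQ₀ hθ hG0.le hw1 hw2' hG2 hN1 hwsmall hGsmall hnN ?_
    exact (abs_sub_le _ nstar _).trans
      (add_le_add (hI1 n hn) (by rw [abs_sub_comm]; exact hrN))
  have hN1 : (K : ℝ) * G ≤ ((K * G : ℕ) : ℝ) := by push_cast; exact le_rfl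
  have hN2 : ((K * G : ℕ) : ℝ) ≤ ((K : ℝ) + 1) * G := by
    push_cast
    exact mul_le_mul_of_nonneg_right (le_add_of_nonneg_right zero_le_one) hG0.le
  have hN1' : (K : ℝ) * G ≤ (((K + 1) * G : ℕ) : ℝ) := by
    push_cast
    exact mul_le_mul_of_nonneg_right (le_add_of_nonneg_right zero_le_one) hG0.le
  have hN2' : (((K + 1) * G : ℕ) : ℝ) ≤ ((K : ℝ) + 1) * G := by push_cast; exact le_rfl
  have hrN : |r * (((K * G : ℕ)) : ℝ) - nstar| ≤ G := by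
    push_cast; exact hrN0
  have hrN' : |r * ((((K + 1) * G : ℕ)) : ℝ) - nstar| ≤ G := by
    push_cast; exact hrN0'
  refine ⟨K, s, s', I, hK4, hK1, hs_lo, hs_hi, hs'_lo, hs'_hi, hIK, hIK', hcard1, ?_,
    fun n hn => hrat s _ hs_lo hs_hi hsK hrN hN1 hN2 n hn (hIK n hn),
    fun n hn => hrat s' _ hs'_lo hs'_hi hs'K hrN' hN1' hN2' n hn (hIK' n hn)⟩
  calc c₁ ≤ (I.card : ℝ) * (c₁ / w) := by
        rw [mul_div_assoc', le_div_iff₀ (by positivity), mul_comm]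
        exact mul_le_mul_of_nonneg_right hcard2 hc10.le
    _ ≤ _ := by
        rw [← nsmul_eq_mul]
        refine card_nsmul_le_sum _ _ _ fun n hn => le_min ?_ ?_
        · exact hlow s _ hs_lo hs_hi hsK hN1 hN2 n hn (hIK n hn)
        · exact hlow s' _ hs'_lo hs'_hi hs'K hN1' hN2' n hn (hIK' n hn)

lemma small_err {C c G K w θ n : ℝ} (hC : 0 < C) (hc : 0 < c) (hG : 0 < G) (hw : 0 ≤ w)
    (hw2 : w ^ 2 = (K + 1) * G) (hK : K + 1 ≤ 2 * θ * G) (hθ : θ ≤ (c ^ 2 / (48 * C)) ^ 2 / 2)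
    (hn : n ≤ 3 * w) : C / G * n ≤ (c / 4) ^ 2 := by
  set Z := c ^ 2 / (48 * C) with hZ
  have h2 : w ≤ Z * G := by
    rw [← pow_le_pow_iff_left₀ hw (by rw [hZ]; positivity) two_ne_zero, hw2, mul_pow]
    calc (K + 1) * G ≤ 2 * θ * G * G := mul_le_mul_of_nonneg_right hK hG.le
      _ ≤ 2 * (Z ^ 2 / 2) * G * G := by gcongr
      _ = _ := by ring
  calc C / G * n ≤ C / G * (3 * (Z * G)) := by
        refine mul_le_mul_of_nonneg_left ?_ (by positivity)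
        linarith
    _ = (c / 4) ^ 2 := by rw [hZ]; field_simp; ring

theorem overlap_items {r : ℝ} (hr0 : 0 < r) (hr1 : r < 1) :
    ∃ (β : ℝ) (a₀ : ℕ), 0 < β ∧ ∀ a, a₀ ≤ a → ∃ (K : ℕ) (R : Alg (FreeMonoid ι)),
      K + 1 ≤ 3 * a ∧ Nn R ∧ Le R (cellT μ r a ^ K) ∧ Le R (cellT μ r a ^ (K + 1)) ∧
      β ≤ mass R := by
  set lo := r / 2 with hlo_def
  set hi := (1 + r) / 2 with hhi_def
  have hlo : 0 < lo := by rw [hlo_def]; linarith
  have hhi : hi < 1 := by rw [hhi_def]; linarith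
  obtain ⟨θ₀, C₀, hθ₀, hC₀, hchain⟩ := chain μ hlo (by rw [hlo_def, hhi_def]; linarith) hhi
  set Q₀ := lo * (1 - hi) with hQ₀
  have hQ0 : 0 < Q₀ := by
    have : 0 < 1 - hi := by linarith
    rw [hQ₀]; positivity
  set c₁ := Real.exp (-(16 / Q₀)) / 8 with hc₁
  have hc10 : 0 < c₁ := by rw [hc₁]; positivity
  set θ := min (θ₀ / 2) (min (1 / 2) ((c₁ ^ 2 / (48 * C₀)) ^ 2 / 2)) with hθ_def
  have hθ : 0 < θ := by
    rw [hθ_def]; exact lt_min (by linarith) (lt_min (by norm_num) (by positivity))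
  have hθa : θ ≤ θ₀ / 2 := min_le_left _ _
  have hθb : θ ≤ 1 / 2 := (min_le_right _ _).trans (min_le_left _ _)
  have hθc : θ ≤ (c₁ ^ 2 / (48 * C₀)) ^ 2 / 2 := (min_le_right _ _).trans (min_le_right _ _)
  set ρ₀ := Real.exp (-((32 + 8 / θ) / Q₀)) * √lo / (4 * cmax lo hi) with hρ₀
  have hρ0 : 0 < ρ₀ := by
    have : 0 < 1 - hi := by linarith
    rw [hρ₀]; unfold cmax; positivity
  refine ⟨ρ₀ * (c₁ / 2), ⌈(256 / Q₀ ^ 2 + r / (1 - r) + 5) / θ⌉₊ + 1, by positivity, fun a ha => ?_⟩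
  have ha1 : (1 : ℝ) ≤ a := by exact_mod_cast (le_trans (Nat.le_add_left 1 _) ha)
  set G := 2 * a + 1 with hG
  have hG' : ((G : ℕ) : ℝ) = 2 * (a : ℝ) + 1 := by rw [hG]; push_cast; ring
  have hG1 : (1 : ℝ) ≤ G := by rw [hG']; linarith
  have hG0 : (0 : ℝ) < G := by linarith
  have hθG : 256 / Q₀ ^ 2 + r / (1 - r) + 5 ≤ θ * G := by
    rw [← div_le_iff₀' hθ]
    calc _ ≤ ((⌈(256 / Q₀ ^ 2 + r / (1 - r) + 5) / θ⌉₊ : ℕ) : ℝ) := Nat.le_ceil _
      _ ≤ (a : ℝ) := by exact_mod_cast le_trans (Nat.le_add_right _ 1) ha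
      _ ≤ G := by rw [hG']; linarith
  obtain ⟨K, s, s', I, hK4, hK1, hs_lo, hs_hi, hs'_lo, hs'_hi, hIK, hIK', hcard1, hmin, hrat, hrat'⟩ :=
    window_exists hr0 hr1 hθ hθb G hG1 hθG
  set w := √(((K : ℝ) + 1) * G) with hw
  have hw2 : w ^ 2 = ((K : ℝ) + 1) * G := Real.sq_sqrt (by positivity)
  set X := cut I (cellT μ s a ^ K) with hX
  set X' := cut I (cellT μ s' a ^ (K + 1)) with hX'
  have hs1 : s < 1 := hs_hi.trans_lt hhi
  have hs'1 : s' < 1 := hs'_hi.trans_lt hhi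
  have hs0 : 0 < s := hlo.trans_le hs_lo
  have hs'0 : 0 < s' := hlo.trans_le hs'_lo
  have hXn : Nn X := ((nn_cellT μ hs0.le hs1.le a).pow K).cut I
  have hXn' : Nn X' := ((nn_cellT μ hs'0.le hs'1.le a).pow (K + 1)).cut I
  set R₀ : Alg (FreeMonoid ι) := (1 / 2 : ℝ) • (X + X' - absM (X - X')) with hR₀
  have key : ∀ y, 0 ≤ R₀.coeff y ∧ R₀.coeff y ≤ X.coeff y ∧ R₀.coeff y ≤ X'.coeff y := by
    intro y
    have a' := hXn.coeff y
    have b' := hXn'.coeff y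
    simp only [hR₀, MonoidAlgebra.coeff_smul, MonoidAlgebra.coeff_sub, MonoidAlgebra.coeff_add,
      Finsupp.smul_apply, Finsupp.sub_apply, Finsupp.add_apply, absM_coeff, smul_eq_mul]
    rcases abs_cases (X.coeff y - X'.coeff y) with ⟨e, _⟩ | ⟨e, _⟩ <;>
      rw [e] <;> refine ⟨?_, ?_, ?_⟩ <;> linarith
  have hKθ : ((K + 1 : ℕ) : ℝ) ≤ θ₀ * (2 * a + 1) := by
    rw [← hG']; push_cast; nlinarith
  have hKθ' : (K : ℝ) ≤ θ₀ * (2 * a + 1) := by push_cast at hKθ; linarith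
  refine ⟨K, ρ₀ • R₀, ?_, ?_, ?_, ?_, ?_⟩
  · have : ((K + 1 : ℕ) : ℝ) ≤ ((3 * a : ℕ) : ℝ) := by
      push_cast
      rw [hG'] at hK1
      nlinarith
    exact_mod_cast this
  · exact (nn_of_coeff fun y => (key y).1).smul hρ0.le
  · exact (Le.smul (le_of_coeff fun y => (key y).2.1) hρ0.le).trans
      (tilt_cut_le μ hr0 hr1 hs0 hs1 a K I hIK fun n hn =>
        hrat n hn)
  · exact (Le.smul (le_of_coeff fun y => (key y).2.2) hρ0.le).trans
      (tilt_cut_le μ hr0 hr1 hs'0 hs'1 a (K + 1) I hIK' fun n hn =>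
        hrat' n hn)
  · rw [map_smul, smul_eq_mul]
    refine mul_le_mul_of_nonneg_left ?_ hρ0.le
    have hf := hchain s hs_lo hs_hi a K hKθ'
    have hf' := hchain s' hs'_lo hs'_hi a (K + 1) hKθ
    rw [← hG] at hf hf'
    rw [← hG'] at hf hf'
    set f := cellT μ s a ^ K - pairT μ s ^ (K * G) with hf_def
    set f' := cellT μ s' a ^ (K + 1) - pairT μ s' ^ ((K + 1) * G) with hf'_def
    have eX : X = cut I (pairT μ s ^ (K * G)) + cut I f := by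
      rw [hX, ← cut_add, hf_def, add_sub_cancel]
    have eX' : X' = cut I (pairT μ s' ^ ((K + 1) * G)) + cut I f' := by
      rw [hX', ← cut_add, hf'_def, add_sub_cancel]
    rw [cut_pairT_pow μ I s _ hIK] at eX
    rw [cut_pairT_pow μ I s' _ hIK'] at eX'
    set b := fun n => bn s (K * G) n with hb
    set b' := fun n => bn s' ((K + 1) * G) n with hb'
    have hsmall : ∀ {σ : ℝ} {L : ℕ} {Z : Alg (FreeMonoid ι)}, Bd Z (uptoM μ L) (C₀ / G) →
        nrm (cut I Z) ≤ c₁ / 4 := by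
      intro σ L Z hZ
      refine (nrm_cut_le μ hZ I).trans ?_
      rw [Real.sqrt_le_iff]
      refine ⟨by positivity, ?_⟩
      exact small_err hC₀ hc10 hG0 (Real.sqrt_nonneg _) hw2 (by linarith) hθc hcard1
    have e1 := hsmall (σ := s) hf
    have e2 := hsmall (σ := s') hf'
    refine le_trans (le_of_eq (by ring)) (le_trans
      (mass_common μ b b' (cut I f) (cut I f') hmin e1 e2) ?_)
    rw [← eX, ← eX']

end Vale.Agent.P321.Marker
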