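import Vale.Agent.P321.Alg

/-!
Finitely supported functions on a monoid, seen through their pairing with test functions:
the order `Le` and the chi-square type bound `Bd`.
-/

namespace Vale.Agent.P321.Marker

open Finset
open Vale.Agent.P321

set_option linter.unusedSectionVars false
set_option linter.unusedVariables false

abbrev Alg (M : Type) := MonoidAlgebra ℝ M

variable {M N : Type} [Monoid M] [Monoid N]

/-- The pairing of an element with a test function. -/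
noncomputable def ev (f : Alg M) (φ : M → ℝ) : ℝ := f.coeff.sum fun y x => x * φ y

lemma ev_single (y : M) (x : ℝ) (φ : M → ℝ) : ev (MonoidAlgebra.single y x) φ = x * φ y := by
  simp [ev]

lemma ev_one (φ : M → ℝ) : ev (1 : Alg M) φ = φ 1 := by
  simp [MonoidAlgebra.one_def, ev_single]

lemma ev_zero (φ : M → ℝ) : ev (0 : Alg M) φ = 0 := by simp [ev]

lemma ev_add (f g : Alg M) (φ : M → ℝ) : ev (f + g) φ = ev f φ + ev g φ := by
  classical
  unfold ev
  rw [MonoidAlgebra.coeff_add]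
  exact Finsupp.sum_add_index' (fun _ => by simp) (fun _ _ _ => by ring)

lemma ev_smul (t : ℝ) (f : Alg M) (φ : M → ℝ) : ev (t • f) φ = t * ev f φ := by
  unfold ev
  rw [MonoidAlgebra.coeff_smul, Finsupp.sum_smul_index (fun _ => by simp), Finsupp.mul_sum]
  simp [mul_assoc]

lemma ev_neg (f : Alg M) (φ : M → ℝ) : ev (-f) φ = -ev f φ := by
  have h := ev_smul (-1) f φ
  simpa using h

lemma ev_sub (f g : Alg M) (φ : M → ℝ) : ev (f - g) φ = ev f φ - ev g φ := by
  rw [sub_eq_add_neg, ev_add, ev_neg]; ring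

lemma ev_sum {ι : Type*} (s : Finset ι) (f : ι → Alg M) (φ : M → ℝ) :
    ev (∑ i ∈ s, f i) φ = ∑ i ∈ s, ev (f i) φ := by
  classical
  induction s using Finset.induction_on with
  | empty => simp [ev_zero]
  | insert i s hi ih => rw [sum_insert hi, sum_insert hi, ev_add, ih]

lemma ev_fun_add (f : Alg M) (φ ψ : M → ℝ) :
    ev f (fun y => φ y + ψ y) = ev f φ + ev f ψ := by
  simp only [ev, Finsupp.sum, mul_add, sum_add_distrib]

lemma ev_fun_smul (f : Alg M) (t : ℝ) (φ : M → ℝ) :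
    ev f (fun y => t * φ y) = t * ev f φ := by
  simp only [ev, Finsupp.sum, mul_sum]
  exact sum_congr rfl fun y _ => by ring

lemma ev_fun_sum {ι : Type*} (s : Finset ι) (f : Alg M) (φ : ι → M → ℝ) :
    ev f (fun y => ∑ i ∈ s, φ i y) = ∑ i ∈ s, ev f (φ i) := by
  simp only [ev, Finsupp.sum, mul_sum]
  exact Finset.sum_comm

lemma ev_congr_support (f : Alg M) (φ ψ : M → ℝ)
    (h : ∀ y ∈ f.coeff.support, φ y = ψ y) : ev f φ = ev f ψ := by
  simp only [ev, Finsupp.sum]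
  exact sum_congr rfl fun y hy => by rw [h y hy]

lemma ev_eq_sum (f : Alg M) (φ : M → ℝ) (s : Finset M) (hs : f.coeff.support ⊆ s) :
    ev f φ = ∑ y ∈ s, f.coeff y * φ y := by
  rw [ev, Finsupp.sum_of_support_subset _ hs]
  intro y _; simp

lemma ev_mul (f g : Alg M) (φ : M → ℝ) :
    ev (f * g) φ = ev f (fun u => ev g (fun v => φ (u * v))) := by
  induction f using MonoidAlgebra.induction_linear with
  | zero => simp [ev_zero]
  | add a b ha hb => rw [add_mul, ev_add, ev_add, ha, hb]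
  | single u x =>
    rw [ev_single]
    induction g using MonoidAlgebra.induction_linear with
    | zero => simp [ev_zero]
    | add a b ha hb => rw [mul_add, ev_add, ev_add, ha, hb]; ring
    | single v z => rw [MonoidAlgebra.single_mul_single, ev_single, ev_single]; ring

lemma ev_mapDomain (h : M → N) (f : Alg M) (φ : N → ℝ) :
    ev (MonoidAlgebra.mapDomain h f) φ = ev f (fun y => φ (h y)) := by
  induction f using MonoidAlgebra.induction_linear with
  | zero => simp [ev_zero]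
  | add a b ha hb => rw [MonoidAlgebra.mapDomain_add, ev_add, ev_add, ha, hb]
  | single u x => rw [MonoidAlgebra.mapDomain_single, ev_single, ev_single]

lemma ev_indicator [DecidableEq M] (f : Alg M) (y : M) :
    ev f (fun z => if z = y then 1 else 0) = f.coeff y := by
  rw [ev_eq_sum f _ (f.coeff.support ∪ {y}) subset_union_left]
  simp

/-- `g` dominates `f`. -/
def Le (f g : Alg M) : Prop := ∀ φ : M → ℝ, (∀ y, 0 ≤ φ y) → ev f φ ≤ ev g φ

/-- `f` is nonnegative. -/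
def Nn (f : Alg M) : Prop := ∀ φ : M → ℝ, (∀ y, 0 ≤ φ y) → 0 ≤ ev f φ

lemma Nn.mono {f : Alg M} (hf : Nn f) {φ ψ : M → ℝ} (h : ∀ y, φ y ≤ ψ y) :
    ev f φ ≤ ev f ψ := by
  have h1 := hf (fun y => ψ y + (-1) * φ y) (fun y => by linarith [h y])
  rw [ev_fun_add, ev_fun_smul] at h1
  linarith

lemma Nn.coeff {f : Alg M} (hf : Nn f) (y : M) : 0 ≤ f.coeff y := by
  classical
  rw [← ev_indicator f y]
  exact hf _ fun z => by split <;> norm_num

lemma nn_of_coeff {f : Alg M} (h : ∀ y, 0 ≤ f.coeff y) : Nn f := fun φ hφ =>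
  sum_nonneg fun y _ => mul_nonneg (h y) (hφ y)

lemma Le.coeff {f g : Alg M} (h : Le f g) (y : M) : f.coeff y ≤ g.coeff y := by
  classical
  rw [← ev_indicator f y, ← ev_indicator g y]
  exact h _ fun z => by split <;> norm_num

lemma le_of_coeff {f g : Alg M} (h : ∀ y, f.coeff y ≤ g.coeff y) : Le f g := by
  classical
  intro φ hφ
  rw [ev_eq_sum f φ (f.coeff.support ∪ g.coeff.support) subset_union_left,
    ev_eq_sum g φ (f.coeff.support ∪ g.coeff.support) subset_union_right]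
  exact sum_le_sum fun y _ => mul_le_mul_of_nonneg_right (h y) (hφ y)

lemma nn_single (y : M) {x : ℝ} (hx : 0 ≤ x) : Nn (MonoidAlgebra.single y x) :=
  fun φ hφ => by rw [ev_single]; exact mul_nonneg hx (hφ y)

lemma nn_one : Nn (1 : Alg M) := fun φ hφ => by rw [ev_one]; exact hφ 1

lemma nn_zero : Nn (0 : Alg M) := fun φ _ => by rw [ev_zero]

lemma Nn.add {f g : Alg M} (hf : Nn f) (hg : Nn g) : Nn (f + g) := fun φ hφ => by
  rw [ev_add]; exact add_nonneg (hf φ hφ) (hg φ hφ)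

lemma Nn.smul {f : Alg M} (hf : Nn f) {t : ℝ} (ht : 0 ≤ t) : Nn (t • f) := fun φ hφ => by
  rw [ev_smul]; exact mul_nonneg ht (hf φ hφ)

lemma nn_sum {ι : Type*} (s : Finset ι) (f : ι → Alg M) (h : ∀ i ∈ s, Nn (f i)) :
    Nn (∑ i ∈ s, f i) := fun φ hφ => by
  rw [ev_sum]; exact sum_nonneg fun i hi => h i hi φ hφ

lemma Nn.mul {f g : Alg M} (hf : Nn f) (hg : Nn g) : Nn (f * g) := fun φ hφ => by
  rw [ev_mul]; exact hf _ fun u => hg _ fun v => hφ _

lemma Nn.pow {f : Alg M} (hf : Nn f) (n : ℕ) : Nn (f ^ n) := by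
  induction n with
  | zero => simpa using (nn_one : Nn (1 : Alg M))
  | succ n ih => rw [pow_succ]; exact ih.mul hf

lemma le_iff_nn_sub {f g : Alg M} : Le f g ↔ Nn (g - f) := by
  constructor
  · intro h φ hφ; rw [ev_sub]; linarith [h φ hφ]
  · intro h φ hφ; have := h φ hφ; rw [ev_sub] at this; linarith

lemma Le.refl (f : Alg M) : Le f f := fun _ _ => le_rfl

lemma Le.trans {f g h : Alg M} (h1 : Le f g) (h2 : Le g h) : Le f h :=
  fun φ hφ => (h1 φ hφ).trans (h2 φ hφ)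

lemma Le.add {f g f' g' : Alg M} (h1 : Le f g) (h2 : Le f' g') : Le (f + f') (g + g') :=
  fun φ hφ => by rw [ev_add, ev_add]; linarith [h1 φ hφ, h2 φ hφ]

lemma Le.smul {f g : Alg M} (h : Le f g) {t : ℝ} (ht : 0 ≤ t) : Le (t • f) (t • g) :=
  fun φ hφ => by rw [ev_smul, ev_smul]; exact mul_le_mul_of_nonneg_left (h φ hφ) ht

lemma Le.mul {f g f' g' : Alg M} (h1 : Le f g) (h2 : Le f' g') (hf' : Nn f') (hg : Nn g) :
    Le (f * f') (g * g') := fun φ hφ => by
  rw [ev_mul, ev_mul]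
  exact (h1 _ fun u => hf' _ fun v => hφ _).trans (hg.mono fun u => h2 _ fun v => hφ _)

lemma Le.pow {f g : Alg M} (h : Le f g) (hf : Nn f) (hg : Nn g) (n : ℕ) :
    Le (f ^ n) (g ^ n) := by
  induction n with
  | zero => exact Le.refl _
  | succ n ih => rw [pow_succ, pow_succ]; exact ih.mul h hf (hg.pow n)

lemma ev_eq_mass (f : Alg M) : ev f (fun _ => 1) = mass f := by
  rw [mass_eq f (subset_rfl), ev_eq_sum f _ _ (subset_rfl)]
  simp


lemma Nn.mass_nonneg {f : Alg M} (hf : Nn f) : 0 ≤ mass f := by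
  rw [← ev_eq_mass]; exact hf _ fun _ => by norm_num

/-- `f` has squared norm at most `c` relative to `R`. -/
def Bd (f R : Alg M) (c : ℝ) : Prop :=
  0 ≤ c ∧ ∀ φ : M → ℝ, (ev f φ) ^ 2 ≤ c * ev R (fun y => φ y ^ 2)

lemma Nn.evsq {R : Alg M} (hR : Nn R) (φ : M → ℝ) : 0 ≤ ev R (fun y => φ y ^ 2) :=
  hR _ fun y => sq_nonneg _

lemma Bd.mono {f R : Alg M} {c c' : ℝ} (h : Bd f R c) (hc : c ≤ c') (hR : Nn R) :
    Bd f R c' :=
  ⟨h.1.trans hc, fun φ => (h.2 φ).trans (mul_le_mul_of_nonneg_right hc (hR.evsq φ))⟩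

lemma Bd.mono_ref {f R R' : Alg M} {c : ℝ} (h : Bd f R c) (hR : Le R R') : Bd f R' c :=
  ⟨h.1, fun φ => (h.2 φ).trans (mul_le_mul_of_nonneg_left (hR _ fun y => sq_nonneg _) h.1)⟩

lemma bd_zero {R : Alg M} (hR : Nn R) {c : ℝ} (hc : 0 ≤ c) : Bd 0 R c :=
  ⟨hc, fun φ => by rw [ev_zero]; simpa using mul_nonneg hc (hR.evsq φ)⟩

lemma Bd.neg {f R : Alg M} {c : ℝ} (h : Bd f R c) : Bd (-f) R c :=
  ⟨h.1, fun φ => by rw [ev_neg, neg_sq]; exact h.2 φ⟩

lemma Bd.add {f g R : Alg M} {a b : ℝ} (hf : Bd f R (a ^ 2)) (hg : Bd g R (b ^ 2))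
    (hR : Nn R) (ha : 0 ≤ a) (hb : 0 ≤ b) : Bd (f + g) R ((a + b) ^ 2) := by
  refine ⟨sq_nonneg _, fun φ => ?_⟩
  have hS := hR.evsq φ
  have h1 := hf.2 φ
  have h2 := hg.2 φ
  rw [← Real.sq_sqrt hS, ← mul_pow] at h1 h2
  have h1' := abs_le_of_sq_le_sq h1 (by positivity)
  have h2' := abs_le_of_sq_le_sq h2 (by positivity)
  rw [ev_add, ← Real.sq_sqrt hS, ← mul_pow]
  apply sq_le_sq'
  · linarith [neg_abs_le (ev f φ), neg_abs_le (ev g φ)]
  · linarith [le_abs_self (ev f φ), le_abs_self (ev g φ)]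

lemma Bd.smul {f R : Alg M} {c : ℝ} (h : Bd f R c) (t : ℝ) : Bd (t • f) R (t ^ 2 * c) :=
  ⟨mul_nonneg (sq_nonneg t) h.1, fun φ => by
    rw [ev_smul, mul_pow, mul_assoc]
    exact mul_le_mul_of_nonneg_left (h.2 φ) (sq_nonneg t)⟩

lemma Bd.smul_smul {f R : Alg M} {c : ℝ} (h : Bd f R c) {d p : ℝ} (hp : 0 ≤ p)
    (hdp : p = 0 → d = 0) : Bd (d • f) (p • R) (c * (d ^ 2 / p)) := by
  refine ⟨mul_nonneg h.1 (div_nonneg (sq_nonneg d) hp), fun φ => ?_⟩
  rw [ev_smul, ev_smul]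
  rcases hp.lt_or_eq with hp' | hp'
  · calc (d * ev f φ) ^ 2 = d ^ 2 * (ev f φ) ^ 2 := by ring
      _ ≤ d ^ 2 * (c * ev R fun y => φ y ^ 2) :=
          mul_le_mul_of_nonneg_left (h.2 φ) (sq_nonneg d)
      _ = _ := by field_simp
  · simp [hdp hp'.symm, ← hp']

lemma Bd.mul {f g R S : Alg M} {a b : ℝ} (hf : Bd f R a) (hg : Bd g S b) (hR : Nn R) :
    Bd (f * g) (R * S) (a * b) := by
  refine ⟨mul_nonneg hf.1 hg.1, fun φ => ?_⟩
  rw [ev_mul, ev_mul]
  refine (hf.2 _).trans ?_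
  rw [mul_assoc, ← ev_fun_smul R b]
  exact mul_le_mul_of_nonneg_left (hR.mono fun u => hg.2 _) hf.1

lemma bd_self {R : Alg M} (hR : Nn R) : Bd R R (mass R) := by
  refine ⟨hR.mass_nonneg, fun φ => ?_⟩
  classical
  rw [← ev_eq_mass, ev_eq_sum R φ R.coeff.support subset_rfl,
    ev_eq_sum R (fun _ => (1 : ℝ)) R.coeff.support subset_rfl,
    ev_eq_sum R (fun y => φ y ^ 2) R.coeff.support subset_rfl]
  apply Finset.sum_sq_le_sum_mul_sum_of_sq_le_mul
  · intro y _; simpa using hR.coeff y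
  · intro y _; exact mul_nonneg (hR.coeff y) (sq_nonneg _)
  · intro y _; ring_nf; rfl

lemma Bd.mul_left {f R S : Alg M} {c : ℝ} (h : Bd f R c) (hS : Nn S) (hS1 : mass S = 1) :
    Bd (S * f) (S * R) c := by
  have := (bd_self hS).mul h hS
  rwa [hS1, one_mul] at this

lemma Bd.mul_right {f R S : Alg M} {c : ℝ} (h : Bd f R c) (hR : Nn R) (hS : Nn S)
    (hS1 : mass S = 1) : Bd (f * S) (R * S) c := by
  have := h.mul (bd_self hS) hR
  rwa [hS1, mul_one] at this

lemma bd_sum {ι : Type*} (s : Finset ι) (f R : ι → Alg M) (c : ι → ℝ)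
    (h : ∀ i ∈ s, Bd (f i) (R i) (c i)) (hR : ∀ i ∈ s, Nn (R i)) :
    Bd (∑ i ∈ s, f i) (∑ i ∈ s, R i) (∑ i ∈ s, c i) := by
  refine ⟨sum_nonneg fun i hi => (h i hi).1, fun φ => ?_⟩
  rw [ev_sum, ev_sum]
  exact Finset.sum_sq_le_sum_mul_sum_of_sq_le_mul s (fun i hi => (h i hi).1)
    (fun i hi => (hR i hi).evsq φ) fun i hi => (h i hi).2 φ

lemma Bd.add2 {f g R S : Alg M} {a b : ℝ} (hf : Bd f R a) (hg : Bd g S b) (hR : Nn R)
    (hS : Nn S) : Bd (f + g) (R + S) (a + b) := by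
  have := bd_sum (s := (Finset.univ : Finset Bool)) (fun i => cond i f g) (fun i => cond i R S)
    (fun i => cond i a b) (by intro i _; cases i <;> assumption)
    (by intro i _; cases i <;> assumption)
  simpa using this

end Vale.Agent.P321.Marker
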